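import Vale.Agent.P139.H203.Emb

/-! # P139: the solution stays close in `H^k` to the circle of constants up to the time `c ε⁻²` -/

open Set Metric Filter Topology MeasureTheory
open scoped NNReal ComplexConjugate

namespace Vale.Agent.P139.H203

open Vale.Agent.P139.A Vale.Agent.P139.A.WA Vale.Agent.P139.H836

variable {d k : ℕ}

/-- The reconstruction, with the distance to the constant. -/
theorem recon2 {m : ℕ} {c : ℝ} (hc : 0 < c) {μ : ℝ} (hμ : 0 ≤ μ)
    (hmc : μ = m * c ^ (2 * m)) {T : ℝ} (hT : 0 ≤ T) {y : ℝ → WA d k} (hy0 : coef (y 0) 0 = 0)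
    (hy : ∀ t ∈ Icc 0 T, HasDerivWithinAt y
      (S k hμ (-t) (fe m c (mass (y 0)) (S k hμ t (y t)))) (Icc 0 T) t)
    (hb : ∀ t ∈ Icc 0 T, ‖S k hμ t (y t)‖ ≤ c / 2) :
    ∃ v : ℝ → WA d k, v 0 = cst c + y 0 ∧ ContinuousOn v (Icc 0 T) ∧
      (∀ t ∈ Icc 0 T, coef (v t) 0 ≠ 0) ∧
      (∀ t ∈ Icc 0 T, ∀ n, HasDerivWithinAt (fun t => coef (v t) n)
        (-Complex.I * (sqNorm n * coef (v t) n) + coef (Nl m (v t)) n) (Icc 0 T) t) ∧
      ∀ t ∈ Icc 0 T, ‖v t - cst c‖ ≤ ‖S k hμ t (y t)‖ +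
        (mass (y 0) + ‖S k hμ t (y t)‖ ^ 2) / c := by
  set e : ℝ := mass (y 0) with he
  have he0 : 0 ≤ e := mass_nonneg _
  set w : ℝ → WA d k := fun t => S k hμ t (y t) with hw
  have hyc : ContinuousOn y (Icc 0 T) := fun t ht => (hy t ht).continuousWithinAt
  have hwc : ContinuousOn w (Icc 0 T) := continuousOn_S hμ hyc
  have h0T : (0 : ℝ) ∈ Icc 0 T := ⟨le_rfl, hT⟩
  have hw0 : w 0 = y 0 := S_zero hμ _
  -- coefficientwise derivative of `w`
  have hwd : ∀ t ∈ Icc 0 T, ∀ n, HasDerivWithinAt (fun t => coef (w t) n)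
      ((if n = 0 then 0 else -Complex.I * ((sqNorm n + μ) * coef (w t) n +
        μ * conj (coef (w t) (-n)))) + coef (fe m c e (w t)) n) (Icc 0 T) t := by
    intro t ht n
    have h1 := hasDeriv_S hμ (hy t ht) n
    rw [S_S_neg] at h1
    exact h1
  -- the zero mode vanishes
  have hwz : ∀ t ∈ Icc 0 T, coef (w t) 0 = 0 := by
    intro t ht
    have h1 := (convex_Icc (0 : ℝ) T).norm_image_sub_le_of_norm_hasDerivWithin_le
      (f := fun t => coef (w t) 0) (C := 0) (fun s hs => hwd s hs 0) (fun s hs => ?_) h0T ht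
    · rw [zero_mul] at h1
      have h2 := sub_eq_zero.1 (norm_le_zero_iff.1 h1)
      rw [h2, hw0, hy0]
    · rw [if_pos rfl, zero_add]
      unfold fe
      rw [coef_sub, coef_Pz, coef_Lin, if_pos rfl, if_pos rfl, sub_zero, norm_zero]
  have hwPz : ∀ t ∈ Icc 0 T, Pz (w t) = w t := fun t ht => Pz_of_zero (hwz t ht)
  -- the zero mode of `v`
  set R : ℝ → ℝ := fun t => c ^ 2 + e - mass (w t) with hR
  set b : ℝ → ℝ := fun t => Real.sqrt (R t) with hbdef
  have hbz : ∀ t ∈ Icc 0 T, bz c e (w t) = b t := by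
    intro t ht
    simp only [bz, hwPz t ht, hbdef, hR]
  have hRpos : ∀ t ∈ Icc 0 T, 0 < R t := by
    intro t ht
    have h1 : mass (w t) ≤ (c / 2) ^ 2 := (mass_le _).trans
      (pow_le_pow_left₀ (norm_nonneg _) (hb t ht) 2)
    have h2 : 0 < c ^ 2 := by positivity
    simp only [hR]
    nlinarith
  have hbpos : ∀ t ∈ Icc 0 T, 0 < b t := fun t ht => Real.sqrt_pos.2 (hRpos t ht)
  have hb0 : b 0 = c := by
    simp only [hbdef, hR, hw0, ← he]
    rw [add_sub_cancel_right, Real.sqrt_sq hc.le]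
  set v : ℝ → WA d k := fun t => cst (b t) + w t with hv
  have hmassc : ContinuousOn (fun t => mass (w t)) (Icc 0 T) :=
    continuous_mass.comp_continuousOn hwc
  have hbc : ContinuousOn b (Icc 0 T) :=
    Real.continuous_sqrt.comp_continuousOn (continuousOn_const.sub hmassc)
  have hvc : ContinuousOn v (Icc 0 T) := by
    refine ContinuousOn.add ?_ hwc
    unfold cst
    exact hbc.smul continuousOn_const
  have hv0 : ∀ t ∈ Icc 0 T, coef (v t) 0 = b t := by
    intro t ht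
    simp only [hv, coef_add, coef_cst, if_pos, hwz t ht, add_zero]
  have hvn : ∀ t, ∀ n : Lat d, n ≠ 0 → coef (v t) n = coef (w t) n := by
    intro t n hn
    simp only [hv, coef_add, coef_cst, if_neg hn, zero_add]
  have hv0' : ∀ t ∈ Icc 0 T, coef (v t) 0 ≠ 0 := by
    intro t ht
    rw [hv0 t ht]
    exact_mod_cast (hbpos t ht).ne'
  have hfe : ∀ t ∈ Icc 0 T, fe m c e (w t) = Pz (Nl m (v t)) - Lin μ (w t) := by
    intro t ht
    unfold fe
    rw [hbz t ht, hwPz t ht, hmc]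
  -- derivative of the nonzero modes
  have hwd' : ∀ t ∈ Icc 0 T, ∀ n, n ≠ 0 → HasDerivWithinAt (fun t => coef (w t) n)
      (-Complex.I * (sqNorm n * coef (w t) n) + coef (Nl m (v t)) n) (Icc 0 T) t := by
    intro t ht n hn
    refine (hwd t ht n).congr_deriv ?_
    rw [hfe t ht, coef_sub, coef_Pz, coef_Lin, if_neg hn, if_neg hn, if_neg hn]
    ring
  -- derivative of the mass
  have hNc : ContinuousOn (fun t => Nl m (v t)) (Icc 0 T) := fun t ht =>
    ((contDiffAt_Nl m (hv0' t ht)).continuousAt).comp_continuousWithinAt (hvc t ht)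
  have hmd := hasDeriv_mass hT hwc hNc (fun t ht n => by
    by_cases hn : n = 0
    · subst hn
      rw [hwz t ht]
      simp only [map_zero, mul_zero, Complex.zero_re]
      refine (hasDerivWithinAt_const t (Icc 0 T) (0 : ℝ)).congr (fun s hs => ?_) ?_
      · rw [hwz s hs]; simp
      · rw [hwz t ht]; simp
    · have h1 := hwd' t ht n hn
      have h2 := h1.norm_sq
      refine h2.congr_deriv ?_
      rw [Complex.inner]
      simp only [Complex.mul_re, Complex.add_re, Complex.add_im, Complex.mul_im, Complex.neg_re,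
        Complex.neg_im, Complex.I_re, Complex.I_im, Complex.conj_re, Complex.conj_im,
        Complex.ofReal_re, Complex.ofReal_im]
      ring)
  have hbd : ∀ t ∈ Icc 0 T, HasDerivWithinAt b ((coef (Nl m (v t)) 0).re) (Icc 0 T) t := by
    intro t ht
    have h1 : HasDerivWithinAt R (-(2 * (coef (Nl m (v t) * conjL (w t)) 0).re)) (Icc 0 T) t :=
      (hmd t ht).const_sub _
    have h2 := h1.sqrt (hRpos t ht).ne'
    refine h2.congr_deriv ?_
    have h3 : w t = v t - cst (b t) := by simp only [hv]; abel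
    have h4 : (coef (Nl m (v t) * conjL (w t)) 0).re = - (b t * (coef (Nl m (v t)) 0).re) := by
      rw [h3, map_sub, mul_sub, coef_sub, Complex.sub_re, re_Nl_conj, conjL_cst, zero_sub]
      unfold cst
      rw [mul_smul_comm, mul_one, coef_real_smul, Complex.re_ofReal_mul]
    rw [h4]
    have h5 := (hbpos t ht).ne'
    simp only [hbdef] at h5 ⊢
    field_simp
  refine ⟨v, ?_, hvc, hv0', fun t ht n => ?_, fun t ht => ?_⟩
  · simp only [hv, hb0, hw0]
  · by_cases hn : n = 0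
    · subst hn
      have h1 : HasDerivWithinAt (fun t => ((b t : ℝ) : ℂ)) (((coef (Nl m (v t)) 0).re : ℝ) : ℂ)
          (Icc 0 T) t := (hbd t ht).ofReal_comp
      have h2 := h1.congr (fun s hs => hv0 s hs) (hv0 t ht)
      refine h2.congr_deriv ?_
      rw [sqNorm_zero]
      have h3 := im_Nl_zero m (hbpos t ht).ne' (hv0 t ht)
      apply Complex.ext
      · simp
      · simp [h3]
    · have h1 := (hwd' t ht n hn).congr (fun s _ => hvn s n hn) (hvn t n hn)
      rwa [← hvn t n hn] at h1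
  · have e1 : v t - cst c = (b t - c) • (1 : WA d k) + w t := by
      simp only [hv]
      unfold cst
      rw [sub_smul]
      abel
    have e2 : ‖(b t - c) • (1 : WA d k)‖ = |b t - c| := by
      rw [real_smul, norm_smul, norm_one, mul_one, Complex.norm_real, Real.norm_eq_abs]
    have e3 : b t ^ 2 = c ^ 2 + e - mass (w t) := Real.sq_sqrt (hRpos t ht).le
    have e4 : |b t - c| ≤ (e + ‖w t‖ ^ 2) / c := by
      rw [le_div_iff₀ hc]
      have h1 : |b t - c| * (b t + c) = |e - mass (w t)| := by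
        rw [← abs_of_pos (add_pos (hbpos t ht) hc), ← abs_mul]
        congr 1
        nlinarith
      have h2 : |e - mass (w t)| ≤ e + ‖w t‖ ^ 2 := by
        have h3 := mass_le (w t)
        have h4 := mass_nonneg (w t)
        rw [abs_le]
        constructor <;> nlinarith
      have h5 := abs_nonneg (b t - c)
      have h6 := hbpos t ht
      nlinarith
    calc ‖v t - cst c‖ = ‖(b t - c) • (1 : WA d k) + w t‖ := by rw [e1]
      _ ≤ ‖(b t - c) • (1 : WA d k)‖ + ‖w t‖ := norm_add_le _ _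
      _ ≤ ‖w t‖ + (e + ‖w t‖ ^ 2) / c := by rw [e2]; linarith

/-- Existence up to `c ε⁻²` and closeness to the circle of constants. -/
theorem long2_close {m : ℕ} (hm : 1 ≤ m) {z : ℂ} (hz : z ≠ 0)
    (hg : GapC d (m * ‖z‖ ^ (2 * m))) :
    ∃ c > 0, ∃ δ > 0, ∃ C : ℝ, 0 ≤ C ∧ ∀ ε : ℝ, 0 < ε → ε ≤ δ → ∀ a : WA d k, coef a 0 = z →
      ‖a - z • (1 : WA d k)‖ ≤ ε → ∀ T : ℝ, 0 ≤ T → T * ε ^ 2 ≤ c → ∃ u : ℝ → WA d k, u 0 = a ∧
        IsSolution d (2 * m + 1) k T (fun t => coef (u t)) ∧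
        ∀ t ∈ Icc 0 T, ∃ w : ℂ, ‖w‖ = 1 ∧ ‖u t - w • (z • (1 : WA d k))‖ ≤ C * ε := by
  have hμ : 0 ≤ (m : ℝ) * ‖z‖ ^ (2 * m) := by positivity
  have hrc : 0 < ‖z‖ := norm_pos_iff.2 hz
  obtain ⟨dl, hdl, hgap⟩ := hg
  have hB : PrimBound d k m ‖z‖ hμ := Prb.primBound m ‖z‖ hμ hdl hgap
  have hC : FeCubic d k m ‖z‖ := fe_cubic hm hrc
  have hL : FeLip d k m ‖z‖ := fe_lip hm hrc
  set r : ℝ := ‖z‖ with hr
  have hr0 : 0 < r := norm_pos_iff.2 hz
  set μ : ℝ := (m : ℝ) * r ^ (2 * m) with hμdef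
  obtain ⟨K, hK0, hK⟩ := hB
  obtain ⟨C, hC0, δ1, hδ1, hC⟩ := hC
  obtain ⟨r0, hr00, δ2, hδ2, hL⟩ := hL
  set M : ℝ := 2 * (2 + μ) with hM
  have hM1 : 1 ≤ M := by linarith
  have hM0 : 0 < M := by linarith
  obtain ⟨c, hc, δ, hδ, H⟩ := long_time2 (S k hμ) hM1 (norm_S_le hμ) (continuous_S hμ)
    (Qd m r : WA d k →L[ℝ] WA d k →L[ℝ] WA d k) hK0 hK (C := C * (8 * M ^ 3 + 2 * M)) (r0 := r0)
    (by positivity) hr00
  set η : ℝ := min δ (min 1 (min δ1 (min δ2 (min (δ1 / (2 * M)) (r / (4 * M)))))) with hη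
  have hη0 : 0 < η := by positivity
  have hη1 : η ≤ δ := min_le_left _ _
  have hη2 : η ≤ 1 := (min_le_right _ _).trans (min_le_left _ _)
  have hη3 : η ≤ δ1 := (min_le_right _ _).trans ((min_le_right _ _).trans (min_le_left _ _))
  have hη4 : η ≤ δ2 := (min_le_right _ _).trans ((min_le_right _ _).trans
    ((min_le_right _ _).trans (min_le_left _ _)))
  have hη5 : η ≤ δ1 / (2 * M) := (min_le_right _ _).trans ((min_le_right _ _).trans
    ((min_le_right _ _).trans ((min_le_right _ _).trans (min_le_left _ _))))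
  have hη6 : η ≤ r / (4 * M) := (min_le_right _ _).trans ((min_le_right _ _).trans
    ((min_le_right _ _).trans ((min_le_right _ _).trans (min_le_right _ _))))
  rw [le_div_iff₀ (by positivity)] at hη5 hη6
  refine ⟨c, hc, η, hη0, 2 * M + (1 + 4 * M ^ 2) / r, by positivity,
    fun ε hε0 hε2 a ha haη T hT hTc => ?_⟩
  -- normalise the phase
  set ζ : ℂ := z / r with hζ
  have hrC : (r : ℂ) ≠ 0 := by exact_mod_cast hr0.ne'
  have hζn : ‖ζ‖ = 1 := by
    rw [hζ, norm_div, Complex.norm_real, Real.norm_of_nonneg hr0.le, ← hr, div_self hr0.ne']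
  have hζ0 : ζ ≠ 0 := by
    intro h; rw [h] at hζn; simp at hζn
  have hζr : ζ * r = z := by rw [hζ]; field_simp
  set x₀ : WA d k := ζ⁻¹ • (a - z • 1) with hx₀
  have hx₀n : ‖x₀‖ = ‖a - z • (1 : WA d k)‖ := by
    rw [hx₀, norm_smul, norm_inv, hζn, inv_one, one_mul]
  have hx₀0 : coef x₀ 0 = 0 := by
    rw [hx₀, coef_smul, coef_sub, coef_smul, coef_one, if_pos rfl, ha, mul_one, sub_self, mul_zero]
  have hε1 : ‖x₀‖ ≤ ε := by rw [hx₀n]; exact haη
  have he0 : 0 ≤ mass x₀ := mass_nonneg x₀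
  have heε : mass x₀ ≤ ε ^ 2 := (mass_le x₀).trans (pow_le_pow_left₀ (norm_nonneg _) hε1 2)
  have hεη1 : ε ≤ 1 := hε2.trans hη2
  have hεsq : ε ^ 2 ≤ ε := by
    rw [sq]
    exact mul_le_of_le_one_right hε0.le hεη1
  have heη : mass x₀ ≤ η := heε.trans (hεsq.trans hε2)
  obtain ⟨y, hy0, hy⟩ := H ε hε0 (hε2.trans hη1) (fe m r (mass x₀)) (hL _ he0 (heη.trans hη4))
    (fun x hx => by
      have hxδ : ‖x‖ ≤ δ1 := by
        refine hx.trans ?_
        calc 2 * M * ε ≤ 2 * M * η := by gcongr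
          _ = η * (2 * M) := by ring
          _ ≤ δ1 := hη5
      refine (hC _ x he0 (heη.trans hη3) hxδ).trans ?_
      calc C * (‖x‖ ^ 3 + mass x₀ * ‖x‖) ≤ C * ((2 * M * ε) ^ 3 + ε ^ 2 * (2 * M * ε)) := by
            gcongr
        _ = C * (8 * M ^ 3 + 2 * M) * ε ^ 3 := by ring) x₀ hε1 T hT hTc
  have hyε : ∀ t ∈ Icc 0 T, ‖S k hμ t (y t)‖ ≤ 2 * M * ε := by
    intro t ht
    calc ‖S k hμ t (y t)‖ ≤ ‖S k hμ t‖ * ‖y t‖ := (S k hμ t).le_opNorm _
      _ ≤ M * (2 * ε) := by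
          gcongr
          · exact norm_S_le hμ t
          · exact (hy t ht).2
      _ = 2 * M * ε := by ring
  have hyb : ∀ t ∈ Icc 0 T, ‖S k hμ t (y t)‖ ≤ r / 2 := by
    intro t ht
    refine (hyε t ht).trans ?_
    calc 2 * M * ε ≤ 2 * M * η := by gcongr
      _ = η * (4 * M) / 2 := by ring
      _ ≤ r / 2 := by gcongr
  obtain ⟨v, hv0, hvc, hvn, hvd, hvl⟩ := recon2 hr0 hμ hμdef hT (y := y)
    (by rw [hy0]; exact hx₀0) (fun t ht => by rw [hy0]; exact (hy t ht).1) hyb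
  obtain ⟨u, hu0, hu, huv⟩ := gauge hT hvc hvd hvn ζ hζn
  refine ⟨u, ?_, hu, fun t ht => ?_⟩
  · rw [hu0, hv0, hy0, hx₀, smul_add, smul_inv_smul₀ hζ0]
    ext n
    simp only [coef_add, coef_sub, coef_smul, coef_cst, coef_one]
    split_ifs
    · rw [hζr]; ring
    · ring
  · obtain ⟨w, hw1, hw2⟩ := huv t ht
    refine ⟨w / ζ, by rw [norm_div, hw1, hζn, div_one], ?_⟩
    have h5 : u t - (w / ζ) • (z • (1 : WA d k)) = w • (v t - cst r) := by
      rw [hw2]
      ext n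
      simp only [coef_sub, coef_smul, coef_cst, coef_one]
      split_ifs
      · rw [← hζr]; field_simp
      · ring
    rw [h5, norm_smul, hw1, one_mul]
    refine (hvl t ht).trans ?_
    rw [hy0]
    calc ‖S k hμ t (y t)‖ + (mass x₀ + ‖S k hμ t (y t)‖ ^ 2) / r
        ≤ 2 * M * ε + (ε ^ 2 + (2 * M * ε) ^ 2) / r := by
          gcongr
          · exact hyε t ht
          · exact hyε t ht
      _ = 2 * M * ε + (1 + 4 * M ^ 2) / r * ε ^ 2 := by ring
      _ ≤ 2 * M * ε + (1 + 4 * M ^ 2) / r * ε := by gcongr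
      _ = _ := by ring

end Vale.Agent.P139.H203
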