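import Vale.Agent.P139.H203.EnergyB

/-! # P139: the kinetic energy stays small during the whole life of the solution -/

open Set Metric Filter Topology MeasureTheory
open scoped NNReal ENNReal ComplexConjugate

namespace Vale.Agent.P139.H203

open Vale.Agent.P139.A Vale.Agent.P139.A.WA Vale.Agent.P139.H836

variable {d k : ℕ}

theorem poly_nonneg (m : ℕ) (u : WA d k) {M : ℝ} (hM : 0 ≤ M) : ∀ j : ℕ,
    0 ≤ (coef ((u * conjL u) ^ j * ((u * conjL u) ^ (m + 1) -
      (((m : ℝ) + 1) * M ^ m) • (u * conjL u) + ((m : ℝ) * M ^ (m + 1)) • (1 : WA d k))) 0).re := by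
  induction m with
  | zero =>
    intro j
    simp
  | succ m ih =>
    intro j
    set x : WA d k := u * conjL u with hx
    have hxx : conjL x = x := by rw [hx, conjL_mul, conjL_conjL, mul_comm]
    have hcx : conjL (x - M • (1 : WA d k)) = x - M • (1 : WA d k) := by
      have h1 : conjL (M • (1 : WA d k)) = M • (1 : WA d k) := by
        have := conjL_cst (d := d) (k := k) M
        unfold cst at this
        exact this
      rw [map_sub, hxx, h1]
    have e : x ^ j * (x ^ (m + 1 + 1) - ((((m + 1 : ℕ) : ℝ) + 1) * M ^ (m + 1)) • x +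
          (((m + 1 : ℕ) : ℝ) * M ^ (m + 1 + 1)) • (1 : WA d k)) =
        x ^ (j + 1) * (x ^ (m + 1) - (((m : ℝ) + 1) * M ^ m) • x +
          ((m : ℝ) * M ^ (m + 1)) • (1 : WA d k)) +
        (((m : ℝ) + 1) * M ^ m) • ((u ^ j * (x - M • (1 : WA d k))) *
          conjL (u ^ j * (x - M • (1 : WA d k)))) := by
      have h2 : (u ^ j * (x - M • (1 : WA d k))) * conjL (u ^ j * (x - M • (1 : WA d k))) =
          x ^ j * (x - M • (1 : WA d k)) ^ 2 := by
        rw [conjL_mul, hcx, conjL_pow, hx, mul_pow]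
        ring
      rw [h2]
      simp only [Algebra.smul_def, mul_one]
      push_cast [map_mul, map_add, map_pow, map_one, map_natCast]
      ring
    rw [e, coef_add, coef_real_smul, Complex.add_re, Complex.re_ofReal_mul]
    have h3 := ih (j + 1)
    have h4 : 0 ≤ (coef ((u ^ j * (x - M • (1 : WA d k))) *
          conjL (u ^ j * (x - M • (1 : WA d k)))) 0).re := mass_nonneg _
    have h5 : 0 ≤ ((m : ℝ) + 1) * M ^ m := by positivity
    have h6 := mul_nonneg h5 h4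
    linarith

/-- The potential energy is at least that of the constant of the same mass. -/
theorem V_lower (m : ℕ) (u : WA d k) : mass u ^ (m + 1) ≤ (2 * m + 2) * V m u := by
  have hM : 0 ≤ mass u := mass_nonneg u
  have h := poly_nonneg m u hM 0
  rw [pow_zero, one_mul, coef_add, coef_sub, coef_real_smul, coef_real_smul, Complex.add_re,
    Complex.sub_re, Complex.re_ofReal_mul, Complex.re_ofReal_mul, coef_one, if_pos rfl,
    Complex.one_re, mul_one] at h
  have h1 : (coef (u * conjL u) 0).re = mass u := rfl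
  rw [h1] at h
  unfold V
  have h2 : (2 * (m : ℝ) + 2) ≠ 0 := by positivity
  rw [mul_div_cancel₀ _ h2]
  have h3 : ((m : ℝ) + 1) * mass u ^ m * mass u = ((m : ℝ) + 1) * mass u ^ (m + 1) := by ring
  rw [h3] at h
  linarith

/-- Upper bound of the potential energy near a constant. -/
theorem V_upper {m : ℕ} (hm : 1 ≤ m) (z : ℂ) : ∃ C, 0 ≤ C ∧ ∀ w : WA d k, coef w 0 = 0 →
    ‖w‖ ≤ 1 → (2 * m + 2) * V m (z • (1 : WA d k) + w) ≤ (‖z‖ ^ 2) ^ (m + 1) + C * ‖w‖ ^ 2 ∧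
      mass (z • (1 : WA d k) + w) = ‖z‖ ^ 2 + mass w := by
  obtain ⟨l, rfl⟩ : ∃ l, m = l + 1 := ⟨m - 1, by omega⟩
  set A : ℝ := ‖z‖ ^ 2 with hA
  have hA0 : 0 ≤ A := by positivity
  refine ⟨((l : ℝ) + 2) * A ^ (l + 1) +
    ((l : ℝ) + 2) ^ 2 * (A + (2 * ‖z‖ + 1)) ^ l * (2 * ‖z‖ + 1) ^ 2, by positivity,
    fun w hw hw1 => ?_⟩
  set s : WA d k := z • conjL w + conj z • w + w * conjL w with hs
  have hcz : conjL (z • (1 : WA d k)) = conj z • (1 : WA d k) := by
    ext n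
    rw [coef_conjL, coef_smul, coef_smul, coef_one, coef_one, map_mul]
    by_cases hn : n = 0
    · simp [hn]
    · simp [hn]
  have hx : (z • (1 : WA d k) + w) * conjL (z • (1 : WA d k) + w) = A • (1 : WA d k) + s := by
    have h1 : A • (1 : WA d k) = (z * conj z) • (1 : WA d k) := by
      rw [real_smul, Complex.mul_conj, Complex.normSq_eq_norm_sq, hA]
    rw [map_add, hcz, h1, hs]
    simp only [add_mul, mul_add, smul_mul_assoc, mul_smul_comm, one_mul, mul_one, smul_add,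
      smul_smul]
    rw [mul_comm (conj z) z]
    abel
  have hsn : ‖s‖ ≤ (2 * ‖z‖ + 1) * ‖w‖ := by
    have h1 : ‖z • conjL w‖ = ‖z‖ * ‖w‖ := by rw [norm_smul, norm_conjL]
    have h2 : ‖conj z • w‖ = ‖z‖ * ‖w‖ := by rw [norm_smul, RCLike.norm_conj]
    have h3 : ‖w * conjL w‖ ≤ ‖w‖ * 1 := by
      refine (norm_mul_le _ _).trans ?_
      rw [norm_conjL]
      gcongr
    calc ‖s‖ ≤ ‖z • conjL w‖ + ‖conj z • w‖ + ‖w * conjL w‖ := norm_add₃_le
      _ ≤ ‖z‖ * ‖w‖ + ‖z‖ * ‖w‖ + ‖w‖ * 1 := by rw [h1, h2]; gcongr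
      _ = _ := by ring
  have hs0 : (coef s 0).re = mass w := by
    rw [hs, coef_add, coef_add, coef_smul, coef_smul, coef_conjL, neg_zero, hw, map_zero, mul_zero,
      mul_zero, zero_add, zero_add]
    rfl
  have hmass : mass (z • (1 : WA d k) + w) = A + mass w := by
    unfold mass at hs0 ⊢
    rw [hx, coef_add, coef_real_smul, coef_one, if_pos rfl, mul_one, Complex.add_re,
      Complex.ofReal_re, hs0]
  refine ⟨?_, hmass⟩
  have hcn : ‖(A • (1 : WA d k))‖ = A := by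
    rw [real_smul, norm_smul, norm_one, mul_one, Complex.norm_real, Real.norm_of_nonneg hA0]
  have hrem := pow_rem (A • (1 : WA d k)) s l
  rw [hcn] at hrem
  set R : WA d k := (A • (1 : WA d k) + s) ^ (l + 2) - (A • (1 : WA d k)) ^ (l + 2) -
    ((l : WA d k) + 2) * (A • (1 : WA d k)) ^ (l + 1) * s with hR
  have hR0 : (coef R 0).re ≤ ((l : ℝ) + 2) ^ 2 * (A + (2 * ‖z‖ + 1)) ^ l *
      ((2 * ‖z‖ + 1) * ‖w‖) ^ 2 := by
    calc (coef R 0).re ≤ ‖coef R 0‖ := Complex.re_le_norm _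
      _ ≤ ‖R‖ := norm_coef_le' _ _
      _ ≤ ((l : ℝ) + 2) ^ 2 * (A + ‖s‖) ^ l * ‖s‖ ^ 2 := hrem
      _ ≤ ((l : ℝ) + 2) ^ 2 * (A + (2 * ‖z‖ + 1)) ^ l * ((2 * ‖z‖ + 1) * ‖w‖) ^ 2 := by
          gcongr
          refine hsn.trans (mul_le_of_le_one_right (by positivity) hw1)
  have hxp : (A • (1 : WA d k) + s) ^ (l + 2) = (A ^ (l + 2)) • (1 : WA d k) +
      (((l : ℝ) + 2) * A ^ (l + 1)) • s + R := by
    rw [hR, smul_pow, smul_pow, one_pow, one_pow]
    simp only [Algebra.smul_def, mul_one]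
    push_cast [map_mul, map_add, map_pow, map_natCast, map_ofNat]
    ring
  have hV : (2 * ((l + 1 : ℕ) : ℝ) + 2) * V (l + 1) (z • (1 : WA d k) + w) =
      A ^ (l + 2) + ((l : ℝ) + 2) * A ^ (l + 1) * mass w + (coef R 0).re := by
    unfold V
    have h2 : (2 * ((l + 1 : ℕ) : ℝ) + 2) ≠ 0 := by positivity
    rw [mul_div_cancel₀ _ h2, hx, hxp, coef_add, coef_add, coef_real_smul, coef_real_smul,
      coef_one, if_pos rfl, mul_one, Complex.add_re, Complex.add_re, Complex.ofReal_re,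
      Complex.re_ofReal_mul, hs0]
  rw [hV]
  have hmw : mass w ≤ ‖w‖ ^ 2 := mass_le w
  have h9 : ((l : ℝ) + 2) * A ^ (l + 1) * mass w ≤ ((l : ℝ) + 2) * A ^ (l + 1) * ‖w‖ ^ 2 := by
    gcongr
  calc A ^ (l + 2) + ((l : ℝ) + 2) * A ^ (l + 1) * mass w + (coef R 0).re
      ≤ A ^ (l + 2) + ((l : ℝ) + 2) * A ^ (l + 1) * ‖w‖ ^ 2 +
        ((l : ℝ) + 2) ^ 2 * (A + (2 * ‖z‖ + 1)) ^ l * ((2 * ‖z‖ + 1) * ‖w‖) ^ 2 := by linarith
    _ = _ := by ring

/-- During its whole life the solution starting near the constant `z` has small kinetic energy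
and stays close to the circle of the constants of modulus `|z|`. -/
theorem whole_life (hk : d < 2 * k) (hk2 : 2 ≤ k) {m : ℕ} (hm : 1 ≤ m) (z : ℂ) :
    ∃ C, 0 ≤ C ∧ ∀ w : WA d 1, coef w 0 = 0 → ‖w‖ ≤ 1 → ∀ (T : ℝ) (u : ℝ → Lat d → ℂ),
      IsSolution d (2 * m + 1) k T u → (∀ n, u 0 n = (if n = 0 then z else 0) + coef w n) →
      ∀ t ∈ Icc 0 T, (Summable fun n => sqNorm n * ‖u t n‖ ^ 2) ∧
        ∑' n, sqNorm n * ‖u t n‖ ^ 2 ≤ C * ‖w‖ ^ 2 ∧
        |‖u t 0‖ ^ 2 - ‖z‖ ^ 2| ≤ C * ‖w‖ ^ 2 := by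
  obtain ⟨C, hC0, hC⟩ := V_upper (d := d) (k := 0) hm z
  refine ⟨d + C + 1, by positivity, fun w hw0 hw1 T u hu hu0 t ht => ?_⟩
  have hT : 0 ≤ T := ht.1.trans ht.2
  have h0T : (0 : ℝ) ∈ Icc 0 T := ⟨le_rfl, hT⟩
  obtain ⟨hs, hM, hE⟩ := laws hk hk2 hu t ht
  refine ⟨hs, ?_⟩
  set w0 : WA d 0 := toWA (coef w) with hw0'
  have hcw : ∀ n, coef w0 n = coef w n := coef_toWA w.summable_norm
  have hw00 : coef w0 0 = 0 := by rw [hcw, hw0]
  have hwn : ‖w0‖ ≤ ‖w‖ := by
    rw [norm_eq, norm_eq]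
    refine w0.summable.tsum_le_tsum (fun n => ?_) w.summable
    rw [hcw, W0, one_mul]
    nlinarith [one_le_W (k := 1) n, norm_nonneg (coef w n)]
  have hU0 : toWA (u 0) = z • (1 : WA d 0) + w0 := by
    ext n
    rw [coef_curve hk hu h0T, hu0, coef_add, coef_smul, coef_one, hcw]
    split_ifs <;> simp
  obtain ⟨hV1, hmass⟩ := hC w0 hw00 (hwn.trans hw1)
  have hV2 := V_lower m (toWA (u t))
  rw [hM, hU0, hmass] at hV2
  rw [hU0] at hE
  have hmw0 : 0 ≤ mass w0 := mass_nonneg _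
  have hmw1 : mass w0 ≤ ‖w‖ ^ 2 := (mass_le w0).trans (by gcongr)
  have hA : (‖z‖ ^ 2) ^ (m + 1) ≤ (‖z‖ ^ 2 + mass w0) ^ (m + 1) := by
    gcongr
    linarith
  have hK0 : ∑' n, sqNorm n * ‖u 0 n‖ ^ 2 ≤ d * ‖w‖ ^ 2 := by
    have hterm : ∀ n : Lat d, sqNorm n * ‖u 0 n‖ ^ 2 ≤ d * ‖w‖ * (W 1 n * ‖coef w n‖) := by
      intro n
      by_cases hn : n = 0
      · subst hn
        rw [sqNorm_zero, zero_mul]
        have := (W_pos (k := 1) (0 : Lat d)).le
        positivity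
      · rw [hu0, if_neg hn, zero_add]
        have h1 : sqNorm n ≤ d * (W 1 n) ^ 2 := by
          calc sqNorm n ≤ ∑ _j : Fin d, (W 1 n) ^ 2 := by
                refine Finset.sum_le_sum fun j _ => ?_
                have h2 : |(n j : ℝ)| ≤ ‖n‖ := by
                  have := norm_le_pi_norm n j
                  rwa [Int.norm_eq_abs] at this
                rw [← sq_abs]
                unfold W
                rw [pow_one]
                gcongr
                linarith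
            _ = d * (W 1 n) ^ 2 := by simp
        have h3 := norm_coef_le w n
        have h4 := (W_pos (k := 1) n).le
        calc sqNorm n * ‖coef w n‖ ^ 2 ≤ d * (W 1 n) ^ 2 * ‖coef w n‖ ^ 2 := by gcongr
          _ = d * (W 1 n * ‖coef w n‖) * (W 1 n * ‖coef w n‖) := by ring
          _ ≤ d * ‖w‖ * (W 1 n * ‖coef w n‖) := by gcongr
    have h5 := (laws hk hk2 hu 0 h0T).1.tsum_le_tsum hterm (w.summable.mul_left _)
    rw [tsum_mul_left, ← norm_eq] at h5
    calc _ ≤ _ := h5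
      _ = _ := by ring
  have h2m : (0 : ℝ) < 2 * m + 2 := by positivity
  have hVd : V m (z • (1 : WA d 0) + w0) - V m (toWA (u t)) ≤ C * ‖w‖ ^ 2 / 2 := by
    have h1 : (2 * (m : ℝ) + 2) * (V m (z • (1 : WA d 0) + w0) - V m (toWA (u t))) ≤
        C * ‖w0‖ ^ 2 := by linarith
    have h2 : C * ‖w0‖ ^ 2 ≤ C * ‖w‖ ^ 2 := by gcongr
    have h3 : 0 ≤ C * ‖w‖ ^ 2 := by positivity
    have hm0 : (0 : ℝ) ≤ m := Nat.cast_nonneg m
    by_contra hcon
    push Not at hcon
    have h4 : 2 * (V m (z • (1 : WA d 0) + w0) - V m (toWA (u t))) ≤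
        (2 * (m : ℝ) + 2) * (V m (z • (1 : WA d 0) + w0) - V m (toWA (u t))) := by
      have h5 : 0 ≤ V m (z • (1 : WA d 0) + w0) - V m (toWA (u t)) := by linarith
      nlinarith
    linarith
  have hK : ∑' n, sqNorm n * ‖u t n‖ ^ 2 ≤ (d + C) * ‖w‖ ^ 2 := by
    linarith
  have hw2 : 0 ≤ ‖w‖ ^ 2 := by positivity
  refine ⟨by nlinarith, ?_⟩
  -- the zero mode
  have hms := hasSum_mass (toWA (u t))
  rw [hM, hU0, hmass] at hms
  simp only [coef_curve hk hu ht] at hms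
  have hlow : ‖u t 0‖ ^ 2 ≤ ‖z‖ ^ 2 + mass w0 := by
    rw [← hms.tsum_eq]
    exact hms.summable.le_tsum 0 fun n _ => sq_nonneg _
  have hup : ‖z‖ ^ 2 + mass w0 ≤ ‖u t 0‖ ^ 2 + ∑' n, sqNorm n * ‖u t n‖ ^ 2 := by
    have h1 : Summable fun n : Lat d => (if n = 0 then ‖u t 0‖ ^ 2 else 0) :=
      summable_of_ne_finset_zero (s := {0}) fun n hn => by
        simp only [Finset.mem_singleton] at hn
        simp [hn]
    have h2 := hms.summable.tsum_le_tsum (fun n => ?_) (h1.add hs)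
    · rw [h1.tsum_add hs, tsum_ite_eq, hms.tsum_eq] at h2
      exact h2
    · by_cases hn : n = 0
      · subst hn
        rw [if_pos rfl, sqNorm_zero, zero_mul, add_zero]
      · rw [if_neg hn, zero_add]
        exact le_mul_of_one_le_left (sq_nonneg _) (one_le_sqNorm hn)
  rw [abs_le]
  constructor
  · nlinarith
  · nlinarith [(Nat.cast_nonneg d : (0 : ℝ) ≤ d)]

end Vale.Agent.P139.H203
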