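import Vale.Agent.P139.H836.Main

/-! # P139: `H^k` solutions, `2k > d`, as curves in the Wiener algebra; uniqueness -/

open Set Metric Filter Topology MeasureTheory
open scoped NNReal ENNReal ComplexConjugate

namespace Vale.Agent.P139.H203

open Vale.Agent.P139.A Vale.Agent.P139.A.WA Vale.Agent.P139.H836

variable {d k : ℕ}

theorem weight_pos (k : ℕ) (n : Lat d) : 0 < (1 + sqNorm n) ^ k := by
  have := sqNorm_nonneg n
  positivity

theorem summable_rpow_int {s : ℝ} (hs : 1 / 2 < s) :
    Summable fun m : ℤ => ((1 + (m : ℝ) ^ 2) ^ s)⁻¹ := by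
  have h1 : Summable fun m : ℤ => |(m : ℝ)| ^ (-(2 * s)) :=
    Real.summable_abs_int_rpow (by linarith)
  have h2 : Summable fun m : ℤ => if m = 0 then (1 : ℝ) else 0 := (hasSum_ite_eq 0 1).summable
  refine Summable.of_nonneg_of_le (fun m => by positivity) (fun m => ?_) (h1.add h2)
  by_cases hm : m = 0
  · subst hm
    simp only [Int.cast_zero, ne_eq, OfNat.ofNat_ne_zero, not_false_eq_true, zero_pow, add_zero,
      Real.one_rpow, inv_one, abs_zero, if_true]
    have : (0 : ℝ) ≤ 0 ^ (-(2 * s)) := Real.rpow_nonneg le_rfl _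
    linarith
  · simp only [hm, if_false, add_zero]
    have h3 : 0 < |(m : ℝ)| := by
      rw [abs_pos]; exact_mod_cast hm
    rw [Real.rpow_neg h3.le]
    apply inv_anti₀ (Real.rpow_pos_of_pos h3 _)
    rw [Real.rpow_mul h3.le]
    apply Real.rpow_le_rpow (by positivity) _ (by linarith)
    rw [show ((2 : ℝ)) = ((2 : ℕ) : ℝ) by norm_num, Real.rpow_natCast, sq_abs]
    linarith

theorem summable_inv_weight (hk : d < 2 * k) :
    Summable fun n : Lat d => ((1 + sqNorm n) ^ k)⁻¹ := by
  rcases Nat.eq_zero_or_pos d with rfl | hd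
  · exact summable_of_hasFiniteSupport (Set.toFinite _)
  have hd0 : (0 : ℝ) < d := by exact_mod_cast hd
  set s : ℝ := k / d with hs
  have hs1 : 1 / 2 < s := by
    rw [hs, lt_div_iff₀ hd0]
    have : (d : ℝ) < 2 * k := by exact_mod_cast hk
    linarith
  refine Summable.of_nonneg_of_le (fun n => (inv_pos.2 (weight_pos k n)).le) (fun n => ?_)
    (summable_prod_fin (d := d) (f := fun m => ((1 + (m : ℝ) ^ 2) ^ s)⁻¹)
      (fun m => by positivity) (summable_rpow_int hs1))
  rw [Finset.prod_inv_distrib]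
  apply inv_anti₀
  · exact Finset.prod_pos fun j _ => by positivity
  · calc ∏ j, (1 + (n j : ℝ) ^ 2) ^ s ≤ ∏ _j : Fin d, (1 + sqNorm n) ^ s := by
          refine Finset.prod_le_prod (fun j _ => by positivity) (fun j _ => ?_)
          apply Real.rpow_le_rpow (by positivity) _ (by linarith)
          have : (n j : ℝ) ^ 2 ≤ sqNorm n := by
            unfold sqNorm
            exact Finset.single_le_sum (f := fun j => (n j : ℝ) ^ 2) (fun i _ => sq_nonneg _)
              (Finset.mem_univ j)
          linarith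
      _ = (1 + sqNorm n) ^ k := by
          rw [Finset.prod_const, Finset.card_univ, Fintype.card_fin, ← Real.rpow_natCast,
            ← Real.rpow_mul (by have := sqNorm_nonneg n; linarith), hs, div_mul_cancel₀ _ hd0.ne',
            Real.rpow_natCast]

/-- The embedding constant. -/
noncomputable def CS (d k : ℕ) : ℝ := ∑' n : Lat d, ((1 + sqNorm n) ^ k)⁻¹

theorem CS_nonneg (d k : ℕ) : 0 ≤ CS d k := tsum_nonneg fun n => (inv_pos.2 (weight_pos k n)).le

theorem sum_norm_le (hk : d < 2 * k) {a : Lat d → ℂ} (ha : MemSobolev k a)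
    (s : Finset (Lat d)) : ∑ n ∈ s, ‖a n‖ ≤ Real.sqrt (CS d k * sobolevSq k a) := by
  apply Real.le_sqrt_of_sq_le
  calc (∑ n ∈ s, ‖a n‖) ^ 2
      ≤ (∑ n ∈ s, ((1 + sqNorm n) ^ k)⁻¹) * ∑ n ∈ s, (1 + sqNorm n) ^ k * ‖a n‖ ^ 2 := by
        refine Finset.sum_sq_le_sum_mul_sum_of_sq_le_mul s
          (fun n _ => (inv_pos.2 (weight_pos k n)).le)
          (fun n _ => mul_nonneg (weight_pos k n).le (sq_nonneg _)) (fun n _ => le_of_eq ?_)
        have := (weight_pos k n).ne'
        field_simp
    _ ≤ CS d k * sobolevSq k a := by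
        refine mul_le_mul ?_ ?_ (Finset.sum_nonneg fun n _ =>
          mul_nonneg (weight_pos k n).le (sq_nonneg _)) (CS_nonneg d k)
        · exact (summable_inv_weight hk).sum_le_tsum s
            fun n _ => (inv_pos.2 (weight_pos k n)).le
        · exact Summable.sum_le_tsum s (fun n _ => mul_nonneg (weight_pos k n).le (sq_nonneg _)) ha

theorem summable_of_mem (hk : d < 2 * k) {a : Lat d → ℂ} (ha : MemSobolev k a) :
    Summable fun n => ‖a n‖ :=
  summable_of_sum_le (fun _ => norm_nonneg _) (sum_norm_le hk ha)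

theorem W0 (n : Lat d) : W 0 n = 1 := by simp [W]

open Classical in
/-- The element of the Wiener algebra with coefficients `a`. -/
noncomputable def toWA (a : Lat d → ℂ) : WA d 0 :=
  if h : Summable fun n => W 0 n * ‖a n‖ then mk a h else 0

theorem coef_toWA {a : Lat d → ℂ} (h : Summable fun n => ‖a n‖) (n : Lat d) :
    coef (toWA a) n = a n := by
  have h' : Summable fun n => W 0 n * ‖a n‖ := by simpa only [W0, one_mul] using h
  unfold toWA
  rw [dif_pos h', coef_mk]

theorem norm_le_of_mem (hk : d < 2 * k) {a : Lat d → ℂ} (ha : MemSobolev k a) {x : WA d 0}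
    (hx : ∀ n, coef x n = a n) : ‖x‖ ≤ Real.sqrt (CS d k * sobolevSq k a) := by
  rw [norm_eq]
  simp only [W0, one_mul, hx]
  exact (summable_of_mem hk ha).tsum_le_of_sum_le (sum_norm_le hk ha)

theorem mem_sub {a b : Lat d → ℂ} (ha : MemSobolev k a) (hb : MemSobolev k b) :
    MemSobolev k fun n => a n - b n := by
  refine Summable.of_nonneg_of_le (fun n => mul_nonneg (weight_pos k n).le (sq_nonneg _))
    (fun n => ?_) ((ha.mul_left 2).add (hb.mul_left 2))
  have h1 : ‖a n - b n‖ ^ 2 ≤ 2 * ‖a n‖ ^ 2 + 2 * ‖b n‖ ^ 2 := by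
    have h2 := norm_sub_le (a n) (b n)
    nlinarith [norm_nonneg (a n - b n), norm_nonneg (a n), norm_nonneg (b n),
      sq_nonneg (‖a n‖ - ‖b n‖)]
  calc (1 + sqNorm n) ^ k * ‖a n - b n‖ ^ 2
      ≤ (1 + sqNorm n) ^ k * (2 * ‖a n‖ ^ 2 + 2 * ‖b n‖ ^ 2) :=
        mul_le_mul_of_nonneg_left h1 (weight_pos k n).le
    _ = _ := by ring

/-- A curve in the Wiener algebra solving the equation. -/
structure Curve (m : ℕ) (T : ℝ) (u : ℝ → WA d k) : Prop where
  cont : ContinuousOn u (Icc 0 T)
  eqn : ∀ t ∈ Icc 0 T, ∀ n, HasDerivWithinAt (fun s => coef (u s) n)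
    (-Complex.I * (sqNorm n * coef (u t) n) - Complex.I * coef (F m (u t)) n) (Icc 0 T) t

theorem coef_curve (hk : d < 2 * k) {p : ℕ} {T : ℝ} {u : ℝ → Lat d → ℂ}
    (hu : IsSolution d p k T u) {t : ℝ} (ht : t ∈ Icc 0 T) (n : Lat d) :
    coef (toWA (u t)) n = u t n := coef_toWA (summable_of_mem hk (hu.mem t ht)) n

theorem curve_of (hk : d < 2 * k) {m : ℕ} {T : ℝ} {u : ℝ → Lat d → ℂ}
    (hu : IsSolution d (2 * m + 1) k T u) : Curve m T (fun t => toWA (u t)) where
  cont t ht := by
    rw [ContinuousWithinAt, tendsto_iff_norm_sub_tendsto_zero]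
    have h1 := (hu.cont t ht).const_mul (CS d k)
    have h2 := (Real.continuous_sqrt.tendsto (CS d k * 0)).comp h1
    rw [mul_zero, Real.sqrt_zero] at h2
    refine squeeze_zero' (Eventually.of_forall fun s => norm_nonneg _) ?_ h2
    filter_upwards [self_mem_nhdsWithin] with s hs
    refine norm_le_of_mem hk (mem_sub (hu.mem s hs) (hu.mem t ht)) fun n => ?_
    rw [coef_sub, coef_curve hk hu hs, coef_curve hk hu ht]
  eqn t ht n := by
    obtain ⟨v, hv, he⟩ := hu.eqn t ht n
    have h1 : (fun x => (‖series (u t) x‖ : ℂ) ^ (2 * m + 1 - 1) * series (u t) x) =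
        series (coef (F m (toWA (u t)))) := by
      funext x
      have h2 := ev_F m (toWA (u t)) x
      have h3 : ev (toWA (u t)) x = series (u t) x := by
        unfold ev
        congr 1
        funext n
        exact coef_curve hk hu ht n
      rw [h3] at h2
      rw [Nat.add_sub_cancel]
      exact h2.symm
    rw [h1, fourierCoef_series (F m (toWA (u t))).summable_norm] at he
    have h4 : v = -Complex.I * (sqNorm n * coef (toWA (u t)) n) -
        Complex.I * coef (F m (toWA (u t))) n := by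
      rw [coef_curve hk hu ht]
      have := Complex.I_sq
      linear_combination (-Complex.I) * he + v * this
    rw [← h4]
    exact hv.congr (fun s hs => coef_curve hk hu hs n) (coef_curve hk hu ht n)

/-- Strong differentiability from the coefficientwise derivatives. -/
theorem hasDeriv_of_coef {T : ℝ} (hT : 0 ≤ T) {y f : ℝ → WA d k} (hf : ContinuousOn f (Icc 0 T))
    (h : ∀ t ∈ Icc 0 T, ∀ n, HasDerivWithinAt (fun s => coef (y s) n) (coef (f t) n)
      (Icc 0 T) t) : ∀ t ∈ Icc 0 T, HasDerivWithinAt y (f t) (Icc 0 T) t := by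
  let f' : ℝ → WA d k := IccExtend hT ((Icc 0 T).domRestrict f)
  have hf' : Continuous f' := hf.domRestrict.Icc_extend'
  have hft : ∀ t ∈ Icc 0 T, f' t = f t := fun t ht => by
    simp only [f', IccExtend_of_mem hT _ ht, domRestrict_apply]
  have hcf : ∀ n, Continuous fun s => coef (f' s) n := fun n =>
    (coefR (d := d) (k := k) n).continuous.comp hf'
  have hY : ∀ t ∈ Icc 0 T, y t = y 0 + ∫ s in (0 : ℝ)..t, f' s := by
    intro t ht
    ext n
    rw [coef_add]
    have h1 : coef (∫ s in (0 : ℝ)..t, f' s) n = ∫ s in (0 : ℝ)..t, coef (f' s) n :=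
      ((coefR (d := d) (k := k) n).intervalIntegral_comp_comm
        (hf'.intervalIntegrable (μ := volume) 0 t)).symm
    have hsub : Icc 0 t ⊆ Icc 0 T := Icc_subset_Icc_right ht.2
    have h2 : ∫ s in (0 : ℝ)..t, coef (f' s) n = coef (y t) n - coef (y 0) n := by
      refine intervalIntegral.integral_eq_sub_of_hasDerivAt_of_le ht.1
        (fun s hs => ((h s (hsub hs) n).mono hsub).continuousWithinAt) (fun s hs => ?_)
        ((hcf n).intervalIntegrable _ _)
      rw [hft s (hsub (Ioo_subset_Icc_self hs))]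
      exact (h s (hsub (Ioo_subset_Icc_self hs)) n).hasDerivAt
        (Icc_mem_nhds hs.1 (hs.2.trans_le ht.2))
    rw [h1, h2]
    ring
  intro t ht
  have h5 : HasDerivAt (fun t => ∫ s in (0 : ℝ)..t, f' s) (f' t) t :=
    intervalIntegral.integral_hasDerivAt_right (hf'.intervalIntegrable _ _)
      (hf'.stronglyMeasurableAtFilter _ _) hf'.continuousAt
  have h6 : HasDerivWithinAt (fun t => y 0 + ∫ s in (0 : ℝ)..t, f' s) (f' t) (Icc 0 T) t :=
    (h5.hasDerivWithinAt).const_add _
  have h7 := h6.congr (fun s hs => hY s hs) (hY t ht)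
  rwa [hft t ht] at h7

theorem continuous_F (m : ℕ) : Continuous (F m : WA d k → WA d k) := (contDiff_F m).continuous

theorem interaction {m : ℕ} {T : ℝ} (hT : 0 ≤ T) {u : ℝ → WA d k} (hu : Curve m T u) :
    ∀ t ∈ Icc 0 T, HasDerivWithinAt (fun t => Ug (-t) (u t))
      ((wienerModel d k).field m t (Ug (-t) (u t))) (Icc 0 T) t := by
  have hcancel : ∀ (t : ℝ) (a : WA d k), Ug t (Ug (-t) a) = a := by
    intro t a
    ext n
    rw [coef_Ug, coef_Ug, ← mul_assoc, ← Complex.exp_add]
    have : -(Complex.I * sqNorm n * t) + -(Complex.I * sqNorm n * ((-t : ℝ) : ℂ)) = 0 := by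
      push_cast; ring
    rw [this, Complex.exp_zero, one_mul]
  have hfield : ∀ t, (wienerModel d k).field m t (Ug (-t) (u t)) =
      (-Complex.I) • Ug (-t) (F m (u t)) := by
    intro t
    unfold Model.field
    show (-Complex.I) • Ug (-t) (nl m (Ug t (Ug (-t) (u t)))) = _
    rw [hcancel, nl_eq_F]
  have hcont : ContinuousOn (fun t => (wienerModel d k).field m t (Ug (-t) (u t))) (Icc 0 T) := by
    simp_rw [hfield]
    have h1 : ContinuousOn (fun t => F m (u t)) (Icc 0 T) :=
      (continuous_F (d := d) (k := k) m).comp_continuousOn hu.cont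
    have h2 : ContinuousOn (fun t => F m (u (-t))) (Neg.neg ⁻¹' Icc 0 T) :=
      h1.comp continuous_neg.continuousOn fun _ ht => ht
    have h3 := (wienerModel d k).continuousOn_U h2
    have h4 := h3.comp (s := Icc 0 T) continuous_neg.continuousOn fun t ht => by
      simpa [and_comm] using ht
    have h5 : ContinuousOn (fun t : ℝ => (Ug (-t) (F m (u t)) : WA d k)) (Icc 0 T) := by
      refine h4.congr fun t _ => ?_
      simp only [Function.comp_apply, neg_neg]
      rfl
    exact h5.const_smul (-Complex.I)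
  refine hasDeriv_of_coef hT hcont fun t ht n => ?_
  have h1 := hu.eqn t ht n
  have h2 : HasDerivWithinAt (fun τ : ℝ => Complex.exp (-(Complex.I * sqNorm n * ((-τ : ℝ) : ℂ))))
      (Complex.exp (-(Complex.I * sqNorm n * ((-t : ℝ) : ℂ))) * (Complex.I * sqNorm n))
      (Icc 0 T) t := by
    have h3 : HasDerivAt (fun τ : ℝ => (-(Complex.I * sqNorm n * ((-τ : ℝ) : ℂ)) : ℂ))
        (Complex.I * sqNorm n) t := by
      have h4 : HasDerivAt (fun τ : ℝ => (τ : ℂ)) 1 t := Complex.ofRealCLM.hasDerivAt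
      have h5 := h4.const_mul (Complex.I * sqNorm n)
      rw [mul_one] at h5
      refine h5.congr_of_eventuallyEq (Eventually.of_forall fun τ => ?_)
      push_cast
      ring
    exact h3.cexp.hasDerivWithinAt
  have h5 := h2.fun_mul h1
  have h6 : (fun τ => coef (Ug (-τ) (u τ)) n)
      = fun τ : ℝ => Complex.exp (-(Complex.I * sqNorm n * ((-τ : ℝ) : ℂ))) * coef (u τ) n := by
    funext τ
    rw [coef_Ug]
  rw [h6]
  refine h5.congr_deriv ?_
  rw [hfield, coef_smul, coef_Ug]
  ring

/-- Uniqueness. -/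
theorem curve_unique {m : ℕ} {T : ℝ} {u v : ℝ → WA d k} (hu : Curve m T u) (hv : Curve m T v)
    (h0 : u 0 = v 0) : ∀ t ∈ Icc 0 T, u t = v t := by
  intro t ht
  have hT : 0 ≤ T := ht.1.trans ht.2
  set M := wienerModel d k with hM
  obtain ⟨R1, hR1⟩ := isCompact_Icc.exists_bound_of_continuousOn hu.cont
  obtain ⟨R2, hR2⟩ := isCompact_Icc.exists_bound_of_continuousOn hv.cont
  set R := max (max R1 R2) 0 with hR
  obtain ⟨K, hK⟩ := M.field_lipschitz m (le_max_right _ _ : 0 ≤ R)
  have hiu := interaction hT hu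
  have hiv := interaction hT hv
  have hb : ∀ {w : ℝ → WA d k} {s : ℝ}, ‖w s‖ ≤ R → Ug (-s) (w s) ∈ closedBall (0 : WA d k) R := by
    intro w s hw
    rw [mem_closedBall, dist_zero_right]
    have := M.norm_U (-s) (w s)
    exact (le_of_eq this).trans hw
  have hnh : ∀ s ∈ Ico (0 : ℝ) T, Icc 0 T ∈ 𝓝[Ici s] s := by
    intro s hs
    exact mem_of_superset (Icc_mem_nhdsGE hs.2) (Icc_subset_Icc_left hs.1)
  have := ODE_solution_unique_of_mem_Icc_right (v := M.field m) (K := K)
    (s := fun _ => closedBall (0 : WA d k) R) (a := 0) (b := T)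
    (f := fun t => Ug (-t) (u t)) (g := fun t => Ug (-t) (v t)) (fun s _ => hK s)
    (fun s hs => (hiu s hs).continuousWithinAt)
    (fun s hs => (hiu s (Ico_subset_Icc_self hs)).mono_of_mem_nhdsWithin (hnh s hs))
    (fun s hs => hb ((hR1 s (Ico_subset_Icc_self hs)).trans
      ((le_max_left _ _).trans (le_max_left _ _))))
    (fun s hs => (hiv s hs).continuousWithinAt)
    (fun s hs => (hiv s (Ico_subset_Icc_self hs)).mono_of_mem_nhdsWithin (hnh s hs))
    (fun s hs => hb ((hR2 s (Ico_subset_Icc_self hs)).trans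
      ((le_max_right _ _).trans (le_max_left _ _))))
    (by simp only [h0])
  have h1 : Ug (-t) (u t) = Ug (-t) (v t) := this ht
  ext n
  have h2 := congrArg (fun a => coef a n) h1
  simp only [coef_Ug] at h2
  exact mul_left_cancel₀ (Complex.exp_ne_zero _) h2

/-- Uniqueness in `C([0,T]; H^k)`, `2k > d`. -/
theorem unique (hk : d < 2 * k) {m : ℕ} {T : ℝ} {u v : ℝ → Lat d → ℂ}
    (hu : IsSolution d (2 * m + 1) k T u) (hv : IsSolution d (2 * m + 1) k T v)
    (h0 : u 0 = v 0) : ∀ t ∈ Icc 0 T, u t = v t := by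
  intro t ht
  have h := curve_unique (curve_of hk hu) (curve_of hk hv) (by simp only [h0]) t ht
  funext n
  rw [← coef_curve hk hu ht n, ← coef_curve hk hv ht n]
  exact congrArg (fun a => coef a n) h

end Vale.Agent.P139.H203
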