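import Vale.Agent.P139.H203.Emb
import Mathlib.Topology.UniformSpace.Dini

/-! # P139: conservation of mass and energy for curves in the Wiener algebra -/

open Set Metric Filter Topology MeasureTheory
open scoped NNReal ENNReal ComplexConjugate

namespace Vale.Agent.P139.H203

open Vale.Agent.P139.A Vale.Agent.P139.A.WA Vale.Agent.P139.H836

variable {d k : ℕ}

/-! ### Mass -/

theorem hasSum_mass (a : WA d k) : HasSum (fun n => ‖coef a n‖ ^ 2) (mass a) := by
  have h1 := Complex.hasSum_re (hasSum_mul_conjL a a)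
  refine h1.congr_fun ?_
  intro n
  rw [Complex.mul_conj, Complex.normSq_eq_norm_sq, Complex.ofReal_re]

theorem conjL_F (m : ℕ) (a : WA d k) : conjL (F m a) = (a * conjL a) ^ m * conjL a := by
  unfold F
  rw [conjL_mul, conjL_pow, conjL_pow, conjL_conjL]
  ring

theorem mass_const {m : ℕ} {T : ℝ} {u : ℝ → WA d k} (hu : Curve m T u) :
    ∀ t ∈ Icc 0 T, mass (u t) = mass (u 0) := by
  intro t ht
  have hT : 0 ≤ T := ht.1.trans ht.2
  have hN : ContinuousOn (fun t => (-Complex.I) • F m (u t)) (Icc 0 T) := by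
    have h1 : ContinuousOn (fun t => F m (u t)) (Icc 0 T) :=
      (continuous_F (d := d) (k := k) m).comp_continuousOn hu.cont
    exact h1.const_smul (-Complex.I)
  have h := hasDeriv_mass hT hu.cont hN (fun t ht n => by
    have h2 := (hu.eqn t ht n).norm_sq
    refine h2.congr_deriv ?_
    rw [Complex.inner, coef_smul]
    simp only [Complex.mul_re, Complex.sub_re, Complex.sub_im, Complex.mul_im, Complex.neg_re,
      Complex.neg_im, Complex.I_re, Complex.I_im, Complex.conj_re, Complex.conj_im,
      Complex.ofReal_re, Complex.ofReal_im]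
    ring)
  have h0 : ∀ s ∈ Icc 0 T, 2 * (coef ((-Complex.I) • F m (u s) * conjL (u s)) 0).re = 0 := by
    intro s _
    have h3 : (-Complex.I) • F m (u s) * conjL (u s) =
        (-Complex.I) • (u s * conjL (u s)) ^ (m + 1) := by
      rw [smul_mul_assoc]
      congr 1
      unfold F
      ring
    rw [h3, coef_smul]
    have h4 := im_pow (u s) (m + 1)
    simp only [Complex.mul_re, Complex.neg_re, Complex.neg_im, Complex.I_re, Complex.I_im, h4]
    ring
  have h5 := (convex_Icc (0 : ℝ) T).norm_image_sub_le_of_norm_hasDerivWithin_le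
    (f := fun t => mass (u t)) (C := 0) (fun s hs => h s hs)
    (fun s hs => by rw [h0 s hs, norm_zero]) ⟨le_rfl, hT⟩ ht
  rw [zero_mul] at h5
  exact sub_eq_zero.1 (norm_le_zero_iff.1 h5)

/-! ### Potential energy -/

/-- The potential energy `(2m+2)^{-1} ∑ ...`, the mean of `|u|^(2m+2)/(2m+2)`. -/
noncomputable def V (m : ℕ) (a : WA d k) : ℝ :=
  (coef ((a * conjL a) ^ (m + 1)) 0).re / (2 * m + 2)

theorem continuous_V (m : ℕ) : Continuous (V m : WA d k → ℝ) := by
  unfold V
  refine (Complex.continuous_re.comp ?_).div_const _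
  have h1 : Continuous fun a : WA d k => (a * conjL a) ^ (m + 1) :=
    (continuous_id.mul (conjL (d := d) (k := k)).continuous).pow _
  exact (coefR (d := d) (k := k) 0).continuous.comp h1

theorem hasDeriv_V (m : ℕ) {a : ℝ → WA d k} {a' : WA d k} {s : Set ℝ} {t : ℝ}
    (ha : HasDerivWithinAt a a' s t) :
    HasDerivWithinAt (fun t => V m (a t)) ((coef (a' * conjL (F m (a t))) 0).re) s t := by
  have hc : HasDerivWithinAt (fun t => conjL (a t)) (conjL a') s t :=
    (conjL (d := d) (k := k)).hasFDerivAt.comp_hasDerivWithinAt t ha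
  have hx : HasDerivWithinAt (fun t => a t * conjL (a t)) (a' * conjL (a t) + a t * conjL a') s t :=
    ha.fun_mul hc
  have hp : ∀ j : ℕ, HasDerivWithinAt (fun t => (a t * conjL (a t)) ^ (j + 1))
      ((j + 1 : ℝ) • ((a t * conjL (a t)) ^ j * (a' * conjL (a t) + a t * conjL a'))) s t := by
    intro j
    induction j with
    | zero => simpa using hx
    | succ j ih =>
      have h1 := ih.fun_mul hx
      have h2 : (fun t => (a t * conjL (a t)) ^ (j + 1 + 1)) =
          fun t => (a t * conjL (a t)) ^ (j + 1) * (a t * conjL (a t)) := by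
        funext t; rw [pow_succ]
      rw [h2]
      refine h1.congr_deriv ?_
      push_cast
      rw [smul_mul_assoc, add_smul ((j : ℝ) + 1) 1, one_smul]
      congr 1
      congr 1
      ring
  have h3 := ((coefR (d := d) (k := k) 0).hasFDerivAt.comp_hasDerivWithinAt t (hp m))
  have h4 := ((Complex.reCLM.hasFDerivAt.comp_hasDerivWithinAt t h3)).div_const (2 * m + 2 : ℝ)
  refine h4.congr_deriv ?_
  show (coef ((m + 1 : ℝ) • ((a t * conjL (a t)) ^ m * (a' * conjL (a t) + a t * conjL a'))) 0).re /
    (2 * m + 2) = _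
  have e1 : (a t * conjL (a t)) ^ m * (a' * conjL (a t) + a t * conjL a') =
      a' * conjL (F m (a t)) + conjL (a' * conjL (F m (a t))) := by
    rw [conjL_mul, conjL_conjL, conjL_F]
    unfold F
    ring
  rw [e1, coef_real_smul, coef_add, coef_conjL, neg_zero, Complex.re_ofReal_mul, Complex.add_re,
    Complex.conj_re]
  have : (2 * (m : ℝ) + 2) ≠ 0 := by positivity
  field_simp
  ring

/-! ### Finite sets of modes -/

/-- Restriction to a finite set of modes. -/
noncomputable def Pr (s : Finset (Lat d)) : WA d k →L[ℝ] WA d k :=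
  pairOp (fun n => if n ∈ s then 1 else 0) (fun _ => 0) 1
    (fun n => by split_ifs <;> simp) (fun n => by simp)

theorem coef_Pr (s : Finset (Lat d)) (a : WA d k) (n : Lat d) :
    coef (Pr s a) n = if n ∈ s then coef a n else 0 := by
  unfold Pr
  rw [coef_pairOp]
  split_ifs <;> simp

/-- `iΔ` on a finite set of modes. -/
noncomputable def La (s : Finset (Lat d)) : WA d k →L[ℝ] WA d k :=
  pairOp (fun n => if n ∈ s then -Complex.I * sqNorm n else 0) (fun _ => 0) (∑ n ∈ s, sqNorm n)
    (fun n => by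
      split_ifs with h
      · rw [norm_mul, norm_neg, Complex.norm_I, one_mul, Complex.norm_real,
          Real.norm_of_nonneg (sqNorm_nonneg n)]
        exact Finset.single_le_sum (f := fun n => sqNorm n) (fun i _ => sqNorm_nonneg i) h
      · rw [norm_zero]
        exact Finset.sum_nonneg fun i _ => sqNorm_nonneg i)
    (fun n => by
      rw [norm_zero]
      exact Finset.sum_nonneg fun i _ => sqNorm_nonneg i)

theorem coef_La (s : Finset (Lat d)) (a : WA d k) (n : Lat d) :
    coef (La s a) n = if n ∈ s then -Complex.I * sqNorm n * coef a n else 0 := by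
  unfold La
  rw [coef_pairOp]
  split_ifs <;> simp

theorem norm_sub_Pr (s : Finset (Lat d)) (a : WA d k) :
    ‖a - Pr s a‖ = ‖a‖ - ∑ n ∈ s, W k n * ‖coef a n‖ := by
  rw [norm_eq, norm_eq]
  have h1 : ∀ n, W k n * ‖coef (a - Pr s a) n‖ =
      W k n * ‖coef a n‖ - (if n ∈ s then W k n * ‖coef a n‖ else 0) := by
    intro n
    rw [coef_sub, coef_Pr]
    split_ifs <;> simp
  simp_rw [h1]
  have h2 : Summable fun n => if n ∈ s then W k n * ‖coef a n‖ else 0 :=
    summable_of_ne_finset_zero (s := s) fun n hn => by simp [hn]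
  have h3 : (∑' n, if n ∈ s then W k n * ‖coef a n‖ else 0) = ∑ n ∈ s, W k n * ‖coef a n‖ := by
    rw [tsum_eq_sum (s := s) (fun n hn => if_neg hn)]
    exact Finset.sum_congr rfl fun n hn => if_pos hn
  rw [a.summable.tsum_sub h2, h3]

theorem norm_Pr_le (s : Finset (Lat d)) (a : WA d k) : ‖Pr s a‖ ≤ ‖a‖ := by
  rw [norm_eq, norm_eq]
  refine (Pr s a).summable.tsum_le_tsum (fun n => ?_) a.summable
  rw [coef_Pr]
  have := (W_pos (k := k) n).le
  split_ifs
  · exact le_rfl
  · simp only [norm_zero, mul_zero]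
    positivity

theorem tendsto_Pr (a : WA d k) : Tendsto (fun s : Finset (Lat d) => ‖a - Pr s a‖) atTop (𝓝 0) := by
  simp_rw [norm_sub_Pr]
  have h1 : HasSum (fun n => W k n * ‖coef a n‖) ‖a‖ := by
    rw [norm_eq]; exact a.summable.hasSum
  have h2 := (tendsto_const_nhds (x := ‖a‖)).sub h1
  rwa [sub_self] at h2

theorem tendsto_Pr_unif {T : ℝ} {u : ℝ → WA d k} (hu : ContinuousOn u (Icc 0 T)) {ε : ℝ}
    (hε : 0 < ε) : ∀ᶠ s : Finset (Lat d) in atTop, ∀ t ∈ Icc 0 T, ‖u t - Pr s (u t)‖ < ε := by
  have h := Antitone.tendstoUniformlyOn_of_forall_tendsto (ι := Finset (Lat d))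
    (F := fun s t => ‖u t - Pr s (u t)‖) (f := fun _ => (0 : ℝ)) (s := Icc 0 T) isCompact_Icc
    (fun s => (hu.sub ((Pr s).continuous.comp_continuousOn hu)).norm)
    (fun t _ s s' hss => by
      show ‖u t - Pr s' (u t)‖ ≤ ‖u t - Pr s (u t)‖
      rw [norm_sub_Pr, norm_sub_Pr]
      have := Finset.sum_le_sum_of_subset_of_nonneg hss (f := fun n => W k n * ‖coef (u t) n‖)
        (fun n _ _ => mul_nonneg (W_pos n).le (norm_nonneg _))
      linarith)
    continuousOn_const (fun t _ => tendsto_Pr (u t))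
  have h1 := Metric.tendstoUniformlyOn_iff.1 h ε hε
  filter_upwards [h1] with s hs t ht
  have h2 := hs t ht
  rw [Real.dist_eq, zero_sub, abs_neg, abs_of_nonneg (norm_nonneg _)] at h2
  exact h2

end Vale.Agent.P139.H203
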