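import Vale.Agent.P139.H203.Energy

/-! # P139: conservation of the energy in `H^k`, `k ≥ 2`, `2k > d` -/

open Set Metric Filter Topology MeasureTheory
open scoped NNReal ENNReal ComplexConjugate

namespace Vale.Agent.P139.H203

open Vale.Agent.P139.A Vale.Agent.P139.A.WA Vale.Agent.P139.H836

variable {d k : ℕ}

theorem hasDeriv_Pr {m : ℕ} {T : ℝ} {u : ℝ → WA d k} (hu : Curve m T u) (s : Finset (Lat d))
    {t : ℝ} (ht : t ∈ Icc 0 T) : HasDerivWithinAt (fun t => Pr s (u t))
      (La s (u t) + (-Complex.I) • Pr s (F m (u t))) (Icc 0 T) t := by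
  have hT : 0 ≤ T := ht.1.trans ht.2
  have hc : ContinuousOn (fun t => La s (u t) + (-Complex.I) • Pr s (F m (u t))) (Icc 0 T) := by
    have h1 : ContinuousOn (fun t => F m (u t)) (Icc 0 T) :=
      (continuous_F (d := d) (k := k) m).comp_continuousOn hu.cont
    have h2 : ContinuousOn (fun t => Pr s (F m (u t))) (Icc 0 T) :=
      (Pr s).continuous.comp_continuousOn h1
    exact ((La s).continuous.comp_continuousOn hu.cont).add (h2.const_smul (-Complex.I))
  refine hasDeriv_of_coef (y := fun t => Pr s (u t))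
    (f := fun t => La s (u t) + (-Complex.I) • Pr s (F m (u t))) hT hc (fun t ht n => ?_) t ht
  simp only [coef_add, coef_smul, coef_Pr, coef_La]
  by_cases hn : n ∈ s
  · simp only [hn, if_true]
    refine (hu.eqn t ht n).congr_deriv ?_
    ring
  · simp only [hn, if_false, mul_zero, add_zero]
    exact hasDerivWithinAt_const _ _ _

/-- The kinetic energy of a finite set of modes. -/
noncomputable def Ks (s : Finset (Lat d)) (a : WA d k) : ℝ := ∑ n ∈ s, sqNorm n * ‖coef a n‖ ^ 2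

theorem hasDeriv_Es {m : ℕ} {T : ℝ} {u : ℝ → WA d k} (hu : Curve m T u) (s : Finset (Lat d))
    {t : ℝ} (ht : t ∈ Icc 0 T) :
    HasDerivWithinAt (fun t => Ks s (u t) / 2 + V m (Pr s (u t)))
      (∑ n ∈ s, (sqNorm n * (conj (coef (u t) n) *
          coef (F m (u t) - F m (Pr s (u t))) n).im +
        (conj (coef (F m (Pr s (u t))) n) * coef (F m (u t) - F m (Pr s (u t))) n).im))
      (Icc 0 T) t := by
  have h1 : HasDerivWithinAt (fun t => Ks s (u t))
      (∑ n ∈ s, sqNorm n * (2 * (conj (coef (u t) n) * coef (F m (u t)) n).im)) (Icc 0 T) t := by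
    unfold Ks
    refine HasDerivWithinAt.fun_sum fun n _ => ?_
    refine HasDerivWithinAt.const_mul _ ?_
    refine ((hu.eqn t ht n).norm_sq).congr_deriv ?_
    rw [Complex.inner]
    simp only [Complex.mul_re, Complex.sub_re, Complex.sub_im, Complex.mul_im, Complex.neg_re,
      Complex.neg_im, Complex.I_re, Complex.I_im, Complex.conj_re, Complex.conj_im,
      Complex.ofReal_re, Complex.ofReal_im]
    ring
  have h2 := hasDeriv_V m (hasDeriv_Pr hu s ht)
  have h3 := (h1.div_const 2).fun_add h2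
  refine h3.congr_deriv ?_
  set G := F m (Pr s (u t)) with hG
  have h4 : coef ((La s (u t) + (-Complex.I) • Pr s (F m (u t))) * conjL G) 0 =
      ∑ n ∈ s, (-Complex.I * sqNorm n * coef (u t) n + -Complex.I * coef (F m (u t)) n) *
        conj (coef G n) := by
    have h5 := hasSum_mul_conjL (La s (u t) + (-Complex.I) • Pr s (F m (u t))) G
    have h6 : HasSum
        (fun n => coef (La s (u t) + (-Complex.I) • Pr s (F m (u t))) n * conj (coef G n))
        (∑ n ∈ s, coef (La s (u t) + (-Complex.I) • Pr s (F m (u t))) n * conj (coef G n)) :=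
      hasSum_sum_of_ne_finset_zero
        (fun n hn => by simp only [coef_add, coef_smul, coef_Pr, coef_La, hn, if_false]; ring)
    rw [h5.unique h6]
    refine Finset.sum_congr rfl fun n hn => ?_
    simp only [coef_add, coef_smul, coef_Pr, coef_La, hn, if_true]
  rw [h4, Complex.re_sum, Finset.sum_div, ← Finset.sum_add_distrib]
  refine Finset.sum_congr rfl fun n _ => ?_
  rw [coef_sub]
  simp only [Complex.mul_re, Complex.mul_im, Complex.neg_re, Complex.neg_im, Complex.I_re,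
    Complex.I_im, Complex.conj_re, Complex.conj_im, Complex.ofReal_re, Complex.ofReal_im,
    Complex.add_re, Complex.add_im, Complex.sub_re, Complex.sub_im]
  ring

theorem F_lip (m : ℕ) {R : ℝ} (hR : 0 ≤ R) : ∃ K : ℝ, 0 ≤ K ∧ ∀ a b : WA d k, ‖a‖ ≤ R → ‖b‖ ≤ R →
    ‖F m a - F m b‖ ≤ K * ‖a - b‖ := by
  obtain ⟨K, hK⟩ := nl_lipschitz (W := WA d k) m hR
  refine ⟨K, K.2, fun a b ha hb => ?_⟩
  have := hK.dist_le_mul a (by simpa using ha) b (by simpa using hb)
  rwa [dist_eq_norm, dist_eq_norm, nl_eq_F, nl_eq_F] at this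

/-- Conservation of the energy for curves with bounded second derivatives. -/
theorem energy_const {m : ℕ} {T : ℝ} {u : ℝ → WA d k} (hu : Curve m T u) {B : ℝ}
    (hB : ∀ t ∈ Icc 0 T, ∀ n, sqNorm n * ‖coef (u t) n‖ ≤ B) :
    ∀ t ∈ Icc 0 T, (Summable fun n => sqNorm n * ‖coef (u t) n‖ ^ 2) ∧
      (∑' n, sqNorm n * ‖coef (u t) n‖ ^ 2) / 2 + V m (u t) =
        (∑' n, sqNorm n * ‖coef (u 0) n‖ ^ 2) / 2 + V m (u 0) := by
  have hsum : ∀ t ∈ Icc 0 T, Summable fun n => sqNorm n * ‖coef (u t) n‖ ^ 2 := by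
    intro t ht
    refine Summable.of_nonneg_of_le (fun n => mul_nonneg (sqNorm_nonneg n) (sq_nonneg _))
      (fun n => ?_) ((u t).summable_norm.mul_left B)
    have := hB t ht n
    calc sqNorm n * ‖coef (u t) n‖ ^ 2 = sqNorm n * ‖coef (u t) n‖ * ‖coef (u t) n‖ := by ring
      _ ≤ B * ‖coef (u t) n‖ := by gcongr
  intro t ht
  refine ⟨hsum t ht, ?_⟩
  have hT : 0 ≤ T := ht.1.trans ht.2
  have h0T : (0 : ℝ) ∈ Icc 0 T := ⟨le_rfl, hT⟩
  have hB0 : 0 ≤ B := (mul_nonneg (sqNorm_nonneg 0) (norm_nonneg _)).trans (hB 0 h0T 0)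
  obtain ⟨R0, hR0⟩ := isCompact_Icc.exists_bound_of_continuousOn hu.cont
  set R := max R0 0 with hR
  have hRb : ∀ t ∈ Icc 0 T, ‖u t‖ ≤ R := fun t ht => (hR0 t ht).trans (le_max_left _ _)
  have hR00 : 0 ≤ R := le_max_right _ _
  obtain ⟨K, hK0, hK⟩ := F_lip (d := d) (k := k) m hR00
  -- the energy of `u t`
  set E : ℝ → ℝ := fun t => (∑' n, sqNorm n * ‖coef (u t) n‖ ^ 2) / 2 + V m (u t) with hE
  set Es : Finset (Lat d) → ℝ → ℝ := fun s t => Ks s (u t) / 2 + V m (Pr s (u t)) with hEs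
  have hlim : ∀ t ∈ Icc 0 T, Tendsto (fun s => Es s t) atTop (𝓝 (E t)) := by
    intro t ht
    have hks : Tendsto (fun s => Ks s (u t)) atTop (𝓝 (∑' n, sqNorm n * ‖coef (u t) n‖ ^ 2)) :=
      (hsum t ht).hasSum
    refine (hks.div_const 2).add ?_
    refine ((continuous_V m).tendsto (u t)).comp ?_
    rw [tendsto_iff_norm_sub_tendsto_zero]
    refine (tendsto_Pr (u t)).congr fun s => ?_
    rw [← norm_neg, neg_sub]
  set L : ℝ := (B + R ^ (2 * m + 1)) * K with hL
  have hL0 : 0 ≤ L := by positivity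
  have key : ∀ ε : ℝ, 0 < ε → |E t - E 0| ≤ L * ε * T := by
    intro ε hε
    have h1 : Tendsto (fun s => |Es s t - Es s 0|) atTop (𝓝 |E t - E 0|) :=
      ((hlim t ht).sub (hlim 0 h0T)).abs
    refine le_of_tendsto h1 ?_
    filter_upwards [tendsto_Pr_unif hu.cont hε] with s hs
    have h2 := (convex_Icc (0 : ℝ) T).norm_image_sub_le_of_norm_hasDerivWithin_le
      (f := Es s) (C := L * ε) (fun τ hτ => hasDeriv_Es hu s hτ) (fun τ hτ => ?_) h0T ht
    · rw [Real.norm_eq_abs, Real.norm_eq_abs, sub_zero, abs_of_nonneg ht.1] at h2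
      exact h2.trans (mul_le_mul_of_nonneg_left ht.2 (by positivity))
    · set D := F m (u τ) - F m (Pr s (u τ)) with hD
      set G := F m (Pr s (u τ)) with hG
      have hP : ‖Pr s (u τ)‖ ≤ R := (norm_Pr_le s _).trans (hRb τ hτ)
      have hDn : ‖D‖ ≤ K * ε :=
        (hK _ _ (hRb τ hτ) hP).trans (mul_le_mul_of_nonneg_left (hs τ hτ).le hK0)
      have hGn : ‖G‖ ≤ R ^ (2 * m + 1) := by
        rw [hG, ← nl_eq_F]
        refine (nl_norm_le m _).trans ?_
        gcongr
      calc ‖∑ n ∈ s, (sqNorm n * (conj (coef (u τ) n) * coef D n).im +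
            (conj (coef G n) * coef D n).im)‖
          ≤ ∑ n ∈ s, (B + R ^ (2 * m + 1)) * (W k n * ‖coef D n‖) := by
            refine (norm_sum_le _ _).trans (Finset.sum_le_sum fun n _ => ?_)
            rw [Real.norm_eq_abs]
            refine (abs_add_le _ _).trans ?_
            rw [abs_mul, abs_of_nonneg (sqNorm_nonneg n)]
            have e1 : |(conj (coef (u τ) n) * coef D n).im| ≤ ‖coef (u τ) n‖ * ‖coef D n‖ := by
              refine (Complex.abs_im_le_norm _).trans ?_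
              rw [norm_mul, RCLike.norm_conj]
            have e2 : |(conj (coef G n) * coef D n).im| ≤ ‖coef G n‖ * ‖coef D n‖ := by
              refine (Complex.abs_im_le_norm _).trans ?_
              rw [norm_mul, RCLike.norm_conj]
            have e3 : ‖coef G n‖ ≤ R ^ (2 * m + 1) := (norm_coef_le' G n).trans hGn
            have e4 := hB τ hτ n
            have e5 : ‖coef D n‖ ≤ W k n * ‖coef D n‖ := by
              nlinarith [one_le_W (k := k) n, norm_nonneg (coef D n)]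
            calc sqNorm n * |(conj (coef (u τ) n) * coef D n).im| +
                  |(conj (coef G n) * coef D n).im|
                ≤ sqNorm n * (‖coef (u τ) n‖ * ‖coef D n‖) + ‖coef G n‖ * ‖coef D n‖ := by
                  have := sqNorm_nonneg n
                  gcongr
              _ = (sqNorm n * ‖coef (u τ) n‖ + ‖coef G n‖) * ‖coef D n‖ := by ring
              _ ≤ (B + R ^ (2 * m + 1)) * ‖coef D n‖ := by gcongr
              _ ≤ (B + R ^ (2 * m + 1)) * (W k n * ‖coef D n‖) := by gcongr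
        _ = (B + R ^ (2 * m + 1)) * ∑ n ∈ s, W k n * ‖coef D n‖ := by rw [Finset.mul_sum]
        _ ≤ (B + R ^ (2 * m + 1)) * ‖D‖ := by
            gcongr
            rw [norm_eq]
            exact D.summable.sum_le_tsum s (fun n _ => mul_nonneg (W_pos n).le (norm_nonneg _))
        _ ≤ (B + R ^ (2 * m + 1)) * (K * ε) := by gcongr
        _ = L * ε := by rw [hL]; ring
  have h3 : |E t - E 0| ≤ 0 := by
    refine le_of_forall_pos_le_add fun ε hε => ?_
    have h4 := key (ε / (L * T + 1)) (by positivity)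
    have h5 : L * (ε / (L * T + 1)) * T ≤ ε := by
      have h6 : 0 < L * T + 1 := by positivity
      rw [show L * (ε / (L * T + 1)) * T = ε * (L * T) / (L * T + 1) by ring, div_le_iff₀ h6]
      nlinarith
    linarith
  have h4 := abs_nonpos_iff.1 h3
  exact sub_eq_zero.1 h4

/-! ### Solutions in `H^k` -/

theorem sobolevSq_bdd {p : ℕ} {T : ℝ} {u : ℝ → Lat d → ℂ} (hu : IsSolution d p k T u) :
    ∃ C, ∀ t ∈ Icc 0 T, sobolevSq k (u t) ≤ C := by
  refine isCompact_Icc.induction_on (p := fun S => ∃ C, ∀ t ∈ S, t ∈ Icc 0 T → sobolevSq k (u t) ≤ C)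
    ?_ ?_ ?_ ?_ |>.imp fun C hC t ht => hC t ht ht
  · exact ⟨0, fun t ht => absurd ht (notMem_empty t)⟩
  · rintro S S' hS ⟨C, hC⟩
    exact ⟨C, fun t ht => hC t (hS ht)⟩
  · rintro S S' ⟨C, hC⟩ ⟨C', hC'⟩
    refine ⟨max C C', fun t ht ht' => ?_⟩
    rcases ht with ht | ht
    · exact (hC t ht ht').trans (le_max_left _ _)
    · exact (hC' t ht ht').trans (le_max_right _ _)
  · intro t ht
    have h1 := (hu.cont t ht).eventually (gt_mem_nhds one_pos)
    refine ⟨_, h1, 2 * 1 + 2 * sobolevSq k (u t), fun s hs hsT => ?_⟩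
    have h2 : sobolevSq k (u s) ≤ 2 * sobolevSq k (fun n => u s n - u t n) +
        2 * sobolevSq k (u t) := by
      have hm := mem_sub (hu.mem s hsT) (hu.mem t ht)
      have hsum := ((hm.mul_left 2).add ((hu.mem t ht).mul_left 2))
      have h3 := (hu.mem s hsT).tsum_le_tsum (fun n => ?_) hsum
      · rw [(hm.mul_left 2).tsum_add ((hu.mem t ht).mul_left 2), tsum_mul_left, tsum_mul_left] at h3
        exact h3
      · have h4 : ‖u s n‖ ^ 2 ≤ 2 * ‖u s n - u t n‖ ^ 2 + 2 * ‖u t n‖ ^ 2 := by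
          have h5 : ‖u s n‖ ≤ ‖u s n - u t n‖ + ‖u t n‖ := by
            simpa using norm_add_le (u s n - u t n) (u t n)
          nlinarith [norm_nonneg (u s n - u t n), norm_nonneg (u s n), norm_nonneg (u t n),
            sq_nonneg (‖u s n - u t n‖ - ‖u t n‖)]
        calc (1 + sqNorm n) ^ k * ‖u s n‖ ^ 2
            ≤ (1 + sqNorm n) ^ k * (2 * ‖u s n - u t n‖ ^ 2 + 2 * ‖u t n‖ ^ 2) :=
              mul_le_mul_of_nonneg_left h4 (weight_pos k n).le
          _ = _ := by ring
    have h3 : sobolevSq k (fun n => u s n - u t n) < 1 := hs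
    linarith

theorem second_le {k : ℕ} (hk2 : 2 ≤ k) {a : Lat d → ℂ} (ha : MemSobolev k a) (n : Lat d) :
    sqNorm n * ‖a n‖ ≤ Real.sqrt (sobolevSq k a) := by
  apply Real.le_sqrt_of_sq_le
  have h0 := sqNorm_nonneg n
  calc (sqNorm n * ‖a n‖) ^ 2 = sqNorm n ^ 2 * ‖a n‖ ^ 2 := by ring
    _ ≤ (1 + sqNorm n) ^ k * ‖a n‖ ^ 2 := by
        gcongr
        calc sqNorm n ^ 2 ≤ (1 + sqNorm n) ^ 2 := by gcongr; linarith
          _ ≤ (1 + sqNorm n) ^ k := pow_le_pow_right₀ (by linarith) hk2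
    _ ≤ sobolevSq k a :=
        Summable.le_tsum ha n (fun m _ => mul_nonneg (weight_pos k m).le (sq_nonneg _))

/-- Conservation of mass and energy in `H^k`. -/
theorem laws (hk : d < 2 * k) (hk2 : 2 ≤ k) {m : ℕ} {T : ℝ} {u : ℝ → Lat d → ℂ}
    (hu : IsSolution d (2 * m + 1) k T u) :
    ∀ t ∈ Icc 0 T, (Summable fun n => sqNorm n * ‖u t n‖ ^ 2) ∧
      mass (toWA (u t)) = mass (toWA (u 0)) ∧
      (∑' n, sqNorm n * ‖u t n‖ ^ 2) / 2 + V m (toWA (u t)) =
        (∑' n, sqNorm n * ‖u 0 n‖ ^ 2) / 2 + V m (toWA (u 0)) := by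
  have hc := curve_of hk hu
  obtain ⟨C, hC⟩ := sobolevSq_bdd hu
  intro t ht
  have hT : 0 ≤ T := ht.1.trans ht.2
  have h0T : (0 : ℝ) ∈ Icc 0 T := ⟨le_rfl, hT⟩
  have h := energy_const hc (B := Real.sqrt C) (fun t ht n => by
    rw [coef_curve hk hu ht]
    exact (second_le hk2 (hu.mem t ht) n).trans (Real.sqrt_le_sqrt (hC t ht))) t ht
  simp only [coef_curve hk hu ht, coef_curve hk hu h0T] at h
  exact ⟨h.1, mass_const hc t ht, h.2⟩

end Vale.Agent.P139.H203
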