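import Vale.Agent.P139.H203.Small

/-! # P139: for every fixed `α > k + d` every lifespan has positive probability -/

open Set Metric Filter Topology MeasureTheory ProbabilityTheory
open scoped NNReal ENNReal ComplexConjugate

namespace Vale.Agent.P139.H203

open Vale.Agent.P139.A Vale.Agent.P139.A.WA Vale.Agent.P139.H836

variable {d k : ℕ}

theorem gauss_pos {r : ℝ} (hr : 0 < r) : 0 < gaussianReal 0 (1 / 2) (Ioo (-r) r) := by
  rw [pos_iff_ne_zero]
  intro h
  have h1 := gaussianReal_absolutelyContinuous' 0 (v := 1 / 2) (by norm_num) h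
  rw [Real.volume_Ioo] at h1
  simp only [ENNReal.ofReal_eq_zero] at h1
  linarith

theorem std_pos {r : ℝ} (hr : 0 < r) : 0 < stdComplexGaussian (closedBall 0 r) := by
  unfold stdComplexGaussian
  rw [Measure.map_apply measurable_mkC measurableSet_closedBall]
  refine lt_of_lt_of_le ?_ (measure_mono (s := Ioo (-(r / 2)) (r / 2) ×ˢ Ioo (-(r / 2)) (r / 2)) ?_)
  · rw [Measure.prod_prod]
    have := gauss_pos (half_pos hr)
    exact ENNReal.mul_pos this.ne' this.ne'
  · rintro ⟨x, y⟩ ⟨hx, hy⟩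
    simp only [mem_preimage, mem_closedBall, dist_zero_right]
    have h1 : ‖(⟨x, y⟩ : ℂ)‖ ≤ |x| + |y| := by
      have := Complex.norm_le_abs_re_add_abs_im (⟨x, y⟩ : ℂ)
      simpa using this
    have h2 : |x| ≤ r / 2 := (abs_lt.2 hx).le
    have h3 : |y| ≤ r / 2 := (abs_lt.2 hy).le
    linarith

theorem meas_tail {Ω : Type*} [MeasurableSpace Ω] (g : Lat d → Ω → ℂ) (s : Finset (Lat d))
    (c : Lat d → ℝ≥0∞) (h : ∀ n ∉ s, Measurable (g n)) :
    Measurable fun ω => ∑' n, if n ∈ s then 0 else c n * ‖g n ω‖ₑ := by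
  refine Measurable.tsum fun n => ?_
  by_cases hn : n ∈ s
  · simp only [hn, if_true]
    exact measurable_const
  · simp only [hn, if_false]
    exact (h n hn).enorm.const_mul _

theorem meas_low {Ω : Type*} [MeasurableSpace Ω] (g : Lat d → Ω → ℂ) (s : Finset (Lat d)) (r : ℝ)
    (h : ∀ n ∈ s, Measurable (g n)) : MeasurableSet (⋂ n ∈ s, g n ⁻¹' closedBall 0 r) :=
  Finset.measurableSet_biInter _ fun n hn => h n hn measurableSet_closedBall

/-- A weighted sum of independent complex Gaussians is small with positive probability. -/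
theorem small_ball {Ω : Type*} [mΩ : MeasurableSpace Ω] (P : Measure Ω) [IsProbabilityMeasure P]
    (g : Lat d → Ω → ℂ) (hm : ∀ n, Measurable (g n)) (hind : iIndepFun g P)
    (hg : ∀ n, P.map (g n) = stdComplexGaussian) {q : Lat d → ℝ} (hq0 : ∀ n, 0 ≤ q n)
    (hq : Summable q) {ρ : ℝ} (hρ : 0 < ρ) :
    0 < P {ω | ∑' n, ENNReal.ofReal (q n) * ‖g n ω‖ₑ ≤ ENNReal.ofReal ρ} := by
  classical
  set mom : ℝ≥0∞ := ∫⁻ z, ‖z‖ₑ ∂stdComplexGaussian with hmom
  have hmomT : mom ≠ ∞ := std_moment.ne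
  set η : ℝ := ρ / (4 * (mom.toReal + 1)) with hη
  have hm0 : 0 ≤ mom.toReal := ENNReal.toReal_nonneg
  have hη0 : 0 < η := by positivity
  obtain ⟨s, hs⟩ : ∃ s : Finset (Lat d), (∑' n, q n) - η < ∑ n ∈ s, q n := by
    have h1 : Tendsto (fun s : Finset (Lat d) => ∑ n ∈ s, q n) atTop (𝓝 (∑' n, q n)) := hq.hasSum
    exact (h1.eventually (lt_mem_nhds (sub_lt_self _ hη0))).exists
  set q' : Lat d → ℝ := fun n => if n ∈ s then 0 else q n with hq'
  have hq'0 : ∀ n, 0 ≤ q' n := fun n => by simp only [hq']; split_ifs <;> simp [hq0]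
  have hq's : Summable q' := Summable.of_nonneg_of_le hq'0 (fun n => by
    simp only [hq']; split_ifs <;> simp [hq0]) hq
  have hq't : ∑' n, q' n < η := by
    have h1 : ∀ n, q' n = q n - (if n ∈ s then q n else 0) := fun n => by
      simp only [hq']; split_ifs <;> simp
    have h2 : Summable fun n => if n ∈ s then q n else 0 :=
      summable_of_ne_finset_zero (s := s) fun n hn => by simp [hn]
    have h3 : (∑' n, if n ∈ s then q n else 0) = ∑ n ∈ s, q n := by
      rw [tsum_eq_sum (s := s) (fun n hn => if_neg hn)]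
      exact Finset.sum_congr rfl fun n hn => if_pos hn
    rw [tsum_congr h1, hq.tsum_sub h2, h3]
    linarith
  -- the tail
  set τ : Ω → ℝ≥0∞ := fun ω => ∑' n, if n ∈ s then 0 else ENNReal.ofReal (q n) * ‖g n ω‖ₑ with hτ
  have hτm : Measurable τ := meas_tail g s _ fun n _ => hm n
  have hτi : ∫⁻ ω, τ ω ∂P ≤ ENNReal.ofReal (ρ / 4) := by
    have h1 : ∀ n, Measurable fun ω => if n ∈ s then (0 : ℝ≥0∞) else
        ENNReal.ofReal (q n) * ‖g n ω‖ₑ := by
      intro n
      by_cases hn : n ∈ s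
      · simp only [hn, if_true]; exact measurable_const
      · simp only [hn, if_false]; exact (hm n).enorm.const_mul _
    simp only [hτ]
    rw [lintegral_tsum fun n => (h1 n).aemeasurable]
    have h2 : ∀ n, ∫⁻ ω, (if n ∈ s then (0 : ℝ≥0∞) else ENNReal.ofReal (q n) * ‖g n ω‖ₑ) ∂P =
        ENNReal.ofReal (q' n) * mom := by
      intro n
      by_cases hn : n ∈ s
      · simp [hn, hq']
      · simp only [hn, hq', if_false]
        rw [lintegral_const_mul _ (hm n).enorm, hmom, ← hg n, lintegral_map (by fun_prop) (hm n)]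
    simp_rw [h2]
    rw [ENNReal.tsum_mul_right, ← ENNReal.ofReal_tsum_of_nonneg hq'0 hq's,
      ← ENNReal.ofReal_toReal hmomT, ← ENNReal.ofReal_mul (tsum_nonneg hq'0)]
    apply ENNReal.ofReal_le_ofReal
    calc (∑' n, q' n) * mom.toReal ≤ η * (mom.toReal + 1) := by
          gcongr
          linarith
      _ = ρ / 4 := by rw [hη]; field_simp
  have hB : 0 < P {ω | τ ω < ENNReal.ofReal (ρ / 2)} := by
    have h1 := mul_meas_ge_le_lintegral (μ := P) hτm (ENNReal.ofReal (ρ / 2))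
    have h2 : P {ω | ENNReal.ofReal (ρ / 2) ≤ τ ω} ≤ 1 / 2 := by
      have h3 : ENNReal.ofReal (ρ / 2) * P {ω | ENNReal.ofReal (ρ / 2) ≤ τ ω} ≤
          ENNReal.ofReal (ρ / 2) * (1 / 2) := by
        refine (h1.trans hτi).trans (le_of_eq ?_)
        rw [show (1 / 2 : ℝ≥0∞) = ENNReal.ofReal (1 / 2) by
          rw [ENNReal.ofReal_div_of_pos (by norm_num)]; simp, ← ENNReal.ofReal_mul (by positivity)]
        congr 1
        ring
      exact (ENNReal.mul_le_mul_iff_right (ENNReal.ofReal_pos.2 (by positivity)).ne'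
        ENNReal.ofReal_ne_top).1 h3
    have h3 : {ω | τ ω < ENNReal.ofReal (ρ / 2)} = {ω | ENNReal.ofReal (ρ / 2) ≤ τ ω}ᶜ := by
      ext ω; simp
    rw [h3, prob_compl_eq_one_sub (measurableSet_le measurable_const hτm)]
    have h4 : (1 / 2 : ℝ≥0∞) < 1 := by
      rw [one_div]; exact ENNReal.one_half_lt_one
    exact tsub_pos_of_lt (h2.trans_lt h4)
  -- the low modes
  set Q : ℝ := ∑ n ∈ s, q n with hQ
  have hQ0 : 0 ≤ Q := Finset.sum_nonneg fun n _ => hq0 n
  set r : ℝ := ρ / (2 * (Q + 1)) with hr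
  have hr0 : 0 < r := by positivity
  have hA : 0 < P (⋂ n ∈ s, g n ⁻¹' closedBall 0 r) := by
    rw [hind.measure_inter_preimage_eq_mul s fun n _ => measurableSet_closedBall]
    rw [pos_iff_ne_zero, Finset.prod_ne_zero_iff]
    intro n _
    rw [← Measure.map_apply (hm n) measurableSet_closedBall, hg n]
    exact (std_pos hr0).ne'
  -- independence
  have hI := indep_iSup_of_disjoint (m := fun n => MeasurableSpace.comap (g n) inferInstance)
    (fun n => (hm n).comap_le) hind (S := (s : Set (Lat d))) (T := (s : Set (Lat d))ᶜ)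
    disjoint_compl_right
  have hAm : MeasurableSet[⨆ n ∈ (s : Set (Lat d)), MeasurableSpace.comap (g n) inferInstance]
      (⋂ n ∈ s, g n ⁻¹' closedBall 0 r) :=
    @meas_low d Ω (⨆ n ∈ (s : Set (Lat d)), MeasurableSpace.comap (g n) inferInstance) g s r
      fun n hn => Measurable.of_comap_le
        (le_iSup₂_of_le (f := fun n (_ : n ∈ (s : Set (Lat d))) =>
          MeasurableSpace.comap (g n) inferInstance) n hn le_rfl)
  have hBm : MeasurableSet[⨆ n ∈ (s : Set (Lat d))ᶜ, MeasurableSpace.comap (g n) inferInstance]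
      {ω | τ ω < ENNReal.ofReal (ρ / 2)} := by
    have h1 := @meas_tail d Ω (⨆ n ∈ (s : Set (Lat d))ᶜ, MeasurableSpace.comap (g n) inferInstance)
      g s (fun n => ENNReal.ofReal (q n)) fun n hn => Measurable.of_comap_le
        (le_iSup₂_of_le (f := fun n (_ : n ∈ (s : Set (Lat d))ᶜ) =>
          MeasurableSpace.comap (g n) inferInstance) n hn le_rfl)
    exact h1 measurableSet_Iio
  have hAB := (Indep_iff _ _ _).1 hI _ _ hAm hBm
  have hpos : 0 < P ((⋂ n ∈ s, g n ⁻¹' closedBall 0 r) ∩ {ω | τ ω < ENNReal.ofReal (ρ / 2)}) := by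
    rw [hAB]
    exact ENNReal.mul_pos hA.ne' hB.ne'
  refine hpos.trans_le (measure_mono ?_)
  rintro ω ⟨hω1, hω2⟩
  simp only [mem_iInter, mem_preimage, mem_closedBall, dist_zero_right] at hω1
  simp only [mem_ofPred_eq] at hω2 ⊢
  have h1 : ∀ n, ENNReal.ofReal (q n) * ‖g n ω‖ₑ ≤ (if n ∈ s then ENNReal.ofReal (q n * r) else 0) +
      (if n ∈ s then 0 else ENNReal.ofReal (q n) * ‖g n ω‖ₑ) := by
    intro n
    by_cases hn : n ∈ s
    · simp only [hn, if_true, add_zero]
      rw [ENNReal.ofReal_mul (hq0 n), ← ofReal_norm]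
      gcongr
      exact hω1 n hn
    · simp only [hn, if_false, zero_add, le_refl]
  calc ∑' n, ENNReal.ofReal (q n) * ‖g n ω‖ₑ
      ≤ ∑' n, ((if n ∈ s then ENNReal.ofReal (q n * r) else 0) +
        (if n ∈ s then 0 else ENNReal.ofReal (q n) * ‖g n ω‖ₑ)) := ENNReal.tsum_le_tsum h1
    _ = (∑' n, if n ∈ s then ENNReal.ofReal (q n * r) else 0) + τ ω := ENNReal.tsum_add
    _ = ENNReal.ofReal (Q * r) + τ ω := by
        congr 1
        rw [tsum_eq_sum (s := s) (fun n hn => if_neg hn),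
          Finset.sum_congr rfl fun n hn => if_pos hn,
          ← ENNReal.ofReal_sum_of_nonneg fun n _ => mul_nonneg (hq0 n) hr0.le, hQ, Finset.sum_mul]
    _ ≤ ENNReal.ofReal (ρ / 2) + ENNReal.ofReal (ρ / 2) := by
        gcongr
        rw [hr, mul_div_assoc', div_le_div_iff₀ (by positivity) (by positivity)]
        nlinarith
    _ = ENNReal.ofReal ρ := by
        rw [← ENNReal.ofReal_add (by positivity) (by positivity)]
        congr 1
        ring

/-- For every `α > k + d` every lifespan has positive probability. -/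
theorem prob_pos {Ω : Type*} [MeasurableSpace Ω] (P : Measure Ω) [IsProbabilityMeasure P] {m : ℕ}
    (hm : 1 ≤ m) (g : Lat d → Ω → ℂ) (hgm : ∀ n, Measurable (g n)) (hind : iIndepFun g P)
    (hg : ∀ n, P.map (g n) = stdComplexGaussian) {α : ℝ} (hα : (k : ℝ) + d < α) {T : ℝ}
    (hT : 0 ≤ T) :
    0 < P {ω | ENNReal.ofReal T ≤ lifespan d (2 * m + 1) k (datum g α ω)} := by
  obtain ⟨ρ, hρ, H⟩ := small_data (d := d) (k := k) hm hT
  have hq0 : ∀ n : Lat d, 0 ≤ W k n * Real.sqrt (1 + sqNorm n) ^ (-α) := fun n =>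
    mul_nonneg (W_pos n).le (Real.rpow_nonneg (Real.sqrt_nonneg _) _)
  refine (small_ball P g hgm hind hg hq0 (summable_q hα) hρ).trans_le (measure_mono ?_)
  intro ω hω
  simp only [mem_ofPred_eq] at hω ⊢
  have hterm : ∀ n, W k n * ‖datum g α ω n‖ =
      W k n * Real.sqrt (1 + sqNorm n) ^ (-α) * ‖g n ω‖ := by
    intro n
    unfold datum
    rw [norm_mul, Complex.norm_real, Real.norm_of_nonneg (Real.rpow_nonneg (Real.sqrt_nonneg _) _)]
    ring
  have hE : ∀ n, ENNReal.ofReal (W k n * Real.sqrt (1 + sqNorm n) ^ (-α)) * ‖g n ω‖ₑ =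
      ENNReal.ofReal (W k n * ‖datum g α ω n‖) := by
    intro n
    rw [hterm, ENNReal.ofReal_mul (hq0 n), ofReal_norm]
  simp_rw [hE] at hω
  have hnn : ∀ n, 0 ≤ W k n * ‖datum g α ω n‖ := fun n => mul_nonneg (W_pos n).le (norm_nonneg _)
  have hsum : Summable fun n => W k n * ‖datum g α ω n‖ := by
    have h1 : ∑' n, ENNReal.ofReal (W k n * ‖datum g α ω n‖) ≠ ∞ :=
      (hω.trans_lt ENNReal.ofReal_lt_top).ne
    exact (ENNReal.summable_toReal h1).congr fun n => ENNReal.toReal_ofReal (hnn n)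
  rw [← ENNReal.ofReal_tsum_of_nonneg hnn hsum, ENNReal.ofReal_le_ofReal_iff hρ.le] at hω
  have ha : ∀ n, coef (mk (datum g α ω) hsum : WA d k) n = datum g α ω n := coef_mk _ hsum
  obtain ⟨u, hu0, hu⟩ := H (mk (datum g α ω) hsum) (by
    rw [norm_eq]
    simp only [ha]
    exact hω)
  unfold lifespan
  refine le_iSup₂_of_le (NNReal.mk _ hT) ⟨_, hu, ?_⟩ ?_
  · funext n
    rw [hu0, ha]
  · rw [ENNReal.ofReal, Real.toNNReal_of_nonneg hT]

end Vale.Agent.P139.H203
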