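import Vale.Agent.P139.H203.Coer
import Vale.Agent.P139.H203.Close
import Vale.Agent.P139.H203.Prob

/-! # P139: the life of the random solution -/

open Set Metric Filter Topology MeasureTheory ProbabilityTheory
open scoped NNReal ENNReal ComplexConjugate

namespace Vale.Agent.P139.H203

open Vale.Agent.P139.A Vale.Agent.P139.A.WA Vale.Agent.P139.H836

variable {d k : ℕ}

/-- The nonconstant part of the datum. -/
theorem datum_split (k : ℕ) {γ : Lat d → ℂ} (hs : Summable fun n => ‖γ n‖ * (W (2 * d) n)⁻¹) :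
    ∃ A : ℝ, 0 < A ∧ ∀ α : ℝ, ((k + 2 * d : ℕ) : ℝ) ≤ α → ∃ b : WA d k, coef b 0 = 0 ∧
      ‖b‖ ≤ A * (2 : ℝ) ^ (-α / 2) ∧
      ∀ n, γ n * ((Real.sqrt (1 + sqNorm n) ^ (-α) : ℝ) : ℂ) =
        (if n = 0 then γ 0 else 0) + coef b n := by
  set A : ℝ := (2 : ℝ) ^ (k + 2 * d) * ∑' n, ‖γ n‖ * (W (2 * d) n)⁻¹ with hA
  have hterm : ∀ n, 0 ≤ ‖γ n‖ * (W (2 * d) n)⁻¹ := fun n =>
    mul_nonneg (norm_nonneg _) (inv_pos.2 (W_pos n)).le
  have hA0 : 0 ≤ A := mul_nonneg (by positivity) (tsum_nonneg hterm)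
  refine ⟨A + 1, by positivity, fun α hαk => ?_⟩
  set a₀ : Lat d → ℂ := fun n => γ n * ((Real.sqrt (1 + sqNorm n) ^ (-α) : ℝ) : ℂ) with ha₀
  have hnorm : ∀ n, ‖a₀ n‖ = ‖γ n‖ * Real.sqrt (1 + sqNorm n) ^ (-α) := fun n => by
    simp only [ha₀, norm_mul, Complex.norm_real]
    rw [Real.norm_of_nonneg (Real.rpow_nonneg (Real.sqrt_nonneg _) _)]
  have hbound : ∀ n, n ≠ 0 → W k n * ‖a₀ n‖ ≤
      (2 : ℝ) ^ (k + 2 * d) * (2 : ℝ) ^ (-α / 2) * (‖γ n‖ * (W (2 * d) n)⁻¹) := by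
    intro n hn
    rw [hnorm]
    calc W k n * (‖γ n‖ * Real.sqrt (1 + sqNorm n) ^ (-α))
        = ‖γ n‖ * (W k n * Real.sqrt (1 + sqNorm n) ^ (-α)) := by ring
      _ ≤ ‖γ n‖ * ((2 : ℝ) ^ (k + 2 * d) * (2 : ℝ) ^ (-α / 2) * (W (2 * d) n)⁻¹) := by
          exact mul_le_mul_of_nonneg_left (weight_datum_le hαk hn) (norm_nonneg _)
      _ = _ := by ring
  have hz0 : a₀ 0 = γ 0 := by simp [ha₀, sqNorm_zero]
  have hsum1 : Summable fun n => W k n * ‖(if n = 0 then 0 else a₀ n : ℂ)‖ := by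
    refine Summable.of_nonneg_of_le (fun n => mul_nonneg (W_pos n).le (norm_nonneg _)) (fun n => ?_)
      (hs.mul_left ((2 : ℝ) ^ (k + 2 * d) * (2 : ℝ) ^ (-α / 2)))
    by_cases hn : n = 0
    · simp only [hn, if_true, norm_zero, mul_zero]
      exact mul_nonneg (by positivity) (hterm 0)
    · simp only [hn, if_false]
      exact hbound n hn
  let b : WA d k := mk _ hsum1
  have hb : ∀ n, coef b n = if n = 0 then 0 else a₀ n := fun n => coef_mk _ hsum1 n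
  have hbn : ‖b‖ ≤ A * (2 : ℝ) ^ (-α / 2) := by
    rw [norm_eq]
    have h3 : ∀ n, W k n * ‖coef b n‖ ≤
        (2 : ℝ) ^ (k + 2 * d) * (2 : ℝ) ^ (-α / 2) * (‖γ n‖ * (W (2 * d) n)⁻¹) := by
      intro n
      rw [hb]
      by_cases hn : n = 0
      · simp only [hn, if_true, norm_zero, mul_zero]
        exact mul_nonneg (by positivity) (hterm 0)
      · simp only [hn, if_false]
        exact hbound n hn
    refine (b.summable.tsum_le_tsum h3 (hs.mul_left _)).trans (le_of_eq ?_)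
    rw [tsum_mul_left, hA]
    ring
  refine ⟨b, by rw [hb, if_pos rfl], hbn.trans ?_, fun n => ?_⟩
  · gcongr
    linarith
  · rw [hb]
    by_cases hn : n = 0
    · subst hn
      rw [if_pos rfl, if_pos rfl, add_zero]
      exact hz0
    · rw [if_neg hn, if_neg hn, zero_add]

theorem isSolution_mono {p : ℕ} {T T' : ℝ} (h : T' ≤ T) {u : ℝ → Lat d → ℂ}
    (hu : IsSolution d p k T u) : IsSolution d p k T' u where
  mem t ht := hu.mem t ⟨ht.1, ht.2.trans h⟩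
  cont t ht := (hu.cont t ⟨ht.1, ht.2.trans h⟩).mono_left
    (nhdsWithin_mono _ (Icc_subset_Icc_right h))
  eqn t ht n := by
    obtain ⟨v, hv, he⟩ := hu.eqn t ⟨ht.1, ht.2.trans h⟩ n
    exact ⟨v, hv.mono (Icc_subset_Icc_right h), he⟩

/-- The `H^1` distance to the circle from the kinetic energy and the zero mode. -/
theorem circle_dist {a : Lat d → ℂ} {z : ℂ} (hz : z ≠ 0) {K : ℝ} (hK : 0 ≤ K)
    (hs : Summable fun n => sqNorm n * ‖a n‖ ^ 2) (h1 : ∑' n, sqNorm n * ‖a n‖ ^ 2 ≤ K)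
    (h2 : |‖a 0‖ ^ 2 - ‖z‖ ^ 2| ≤ K) :
    ∃ w : ℂ, ‖w‖ = 1 ∧ sobolevSq 1 (fun n => a n - if n = 0 then w * z else 0) ≤ 3 * K := by
  have hzn : 0 < ‖z‖ := norm_pos_iff.2 hz
  have hzC : (‖z‖ : ℂ) ≠ 0 := by exact_mod_cast hzn.ne'
  obtain ⟨w, hw, hwd⟩ : ∃ w : ℂ, ‖w‖ = 1 ∧ ‖a 0 - w * z‖ ^ 2 ≤ K := by
    by_cases ha : a 0 = 0
    · refine ⟨1, norm_one, ?_⟩
      rw [ha, one_mul, zero_sub, norm_neg]
      rw [ha, norm_zero] at h2
      have := (abs_le.1 h2).1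
      nlinarith
    · have han : 0 < ‖a 0‖ := norm_pos_iff.2 ha
      have haC : (‖a 0‖ : ℂ) ≠ 0 := by exact_mod_cast han.ne'
      refine ⟨a 0 / ‖a 0‖ * (‖z‖ / z), ?_, ?_⟩
      · rw [norm_mul, norm_div, norm_div, Complex.norm_real, Complex.norm_real, norm_norm,
          norm_norm, div_self han.ne', div_self hzn.ne', one_mul]
      · have e : a 0 - a 0 / ‖a 0‖ * (‖z‖ / z) * z = (a 0 / ‖a 0‖) * ((‖a 0‖ - ‖z‖ : ℝ) : ℂ) := by
          push_cast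
          field_simp
        rw [e, norm_mul, norm_div, Complex.norm_real, norm_norm, div_self han.ne', one_mul,
          Complex.norm_real, Real.norm_eq_abs]
        have h5 : |‖a 0‖ - ‖z‖| * (‖a 0‖ + ‖z‖) = |‖a 0‖ ^ 2 - ‖z‖ ^ 2| := by
          rw [show ‖a 0‖ ^ 2 - ‖z‖ ^ 2 = (‖a 0‖ - ‖z‖) * (‖a 0‖ + ‖z‖) by ring, abs_mul,
            abs_of_pos (add_pos han hzn)]
        have h6 : |‖a 0‖ - ‖z‖| ≤ ‖a 0‖ + ‖z‖ := by
          rw [abs_le]
          constructor <;> linarith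
        have h7 := abs_nonneg (‖a 0‖ - ‖z‖)
        nlinarith
  refine ⟨w, hw, ?_⟩
  unfold sobolevSq
  have hg : Summable fun n : Lat d => (if n = 0 then K else 0) :=
    summable_of_ne_finset_zero (s := {0}) fun n hn => by
      simp only [Finset.mem_singleton] at hn
      simp [hn]
  have hterm : ∀ n : Lat d, (1 + sqNorm n) ^ 1 * ‖a n - if n = 0 then w * z else 0‖ ^ 2 ≤
      (if n = 0 then K else 0) + 2 * (sqNorm n * ‖a n‖ ^ 2) := by
    intro n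
    by_cases hn : n = 0
    · subst hn
      rw [if_pos rfl, if_pos rfl, sqNorm_zero]
      linarith
    · rw [if_neg hn, if_neg hn, sub_zero, pow_one, zero_add]
      have := one_le_sqNorm hn
      nlinarith [sq_nonneg ‖a n‖]
  have h0 : ∀ n : Lat d, 0 ≤ (1 + sqNorm n) ^ 1 * ‖a n - if n = 0 then w * z else 0‖ ^ 2 :=
    fun n => mul_nonneg (weight_pos 1 n).le (sq_nonneg _)
  have hb := hg.add (hs.mul_left 2)
  have h5 := (Summable.of_nonneg_of_le h0 hterm hb).tsum_le_tsum hterm hb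
  rw [hg.tsum_add (hs.mul_left 2), tsum_mul_left, tsum_ite_eq] at h5
  linarith

/-- The deterministic theorem. -/
theorem det_all (hd : 2 ≤ d) (hk : d < 2 * k) {m : ℕ} (hm : 1 ≤ m) {γ : Lat d → ℂ}
    (h0 : γ 0 ≠ 0) (hg : GapC d (m * ‖γ 0‖ ^ (2 * m)))
    (hs : Summable fun n => ‖γ n‖ * (W (2 * d) n)⁻¹) :
    ∃ c : ℝ, 0 < c ∧ ∃ C : ℝ, ∃ α₂ : ℝ, ∀ α : ℝ, α₂ ≤ α →
      (∃ u : ℝ → Lat d → ℂ, IsSolution d (2 * m + 1) k (c * (2 : ℝ) ^ α) u ∧
        u 0 = fun n => γ n * ((Real.sqrt (1 + sqNorm n) ^ (-α) : ℝ) : ℂ)) ∧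
      ∀ (T : ℝ) (u : ℝ → Lat d → ℂ), IsSolution d (2 * m + 1) k T u →
        (u 0 = fun n => γ n * ((Real.sqrt (1 + sqNorm n) ^ (-α) : ℝ) : ℂ)) →
        ∀ t ∈ Icc 0 T, ∃ w : ℂ, ‖w‖ = 1 ∧
          sobolevSq 1 (fun n => u t n - if n = 0 then w * γ 0 else 0) ≤ C * (2 : ℝ) ^ (-α) ∧
          (t ≤ c * (2 : ℝ) ^ α →
            sobolevSq k (fun n => u t n - if n = 0 then w * γ 0 else 0) ≤ C * (2 : ℝ) ^ (-α)) := by
  have hk1 : 1 ≤ k := by omega
  have hk2 : 2 ≤ k := by omega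
  obtain ⟨A, hA, HA⟩ := datum_split k hs
  obtain ⟨A1, hA1, HA1⟩ := datum_split 1 hs
  obtain ⟨c0, hc0, δ, hδ, C1, hC10, H⟩ := long2_close (d := d) (k := k) hm h0 hg
  obtain ⟨C2, hC20, H2⟩ := whole_life (d := d) hk hk2 hm (γ 0)
  have hlim : Tendsto (fun α : ℝ => (A + A1) * (2 : ℝ) ^ (-α / 2)) atTop (𝓝 0) := by
    have h1 : Tendsto (fun α : ℝ => -α / 2) atTop atBot := by
      apply Tendsto.atBot_div_const (by norm_num)
      exact tendsto_neg_atTop_atBot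
    have h2 := (tendsto_rpow_atBot_of_base_gt_one 2 (by norm_num)).comp h1
    simpa using h2.const_mul (A + A1)
  obtain ⟨α₂, hα₂⟩ := (hlim.eventually (gt_mem_nhds (lt_min hδ one_pos))).exists_forall_of_atTop
  set c : ℝ := c0 / A ^ 2 with hc
  have hcpos : 0 < c := by positivity
  set C : ℝ := (1 + d : ℝ) ^ k * (C1 * A) ^ 2 + 3 * (C2 * A1 ^ 2) with hC
  refine ⟨c, hcpos, C, max α₂ (((k + 2 * d : ℕ) : ℝ) + ((1 + 2 * d : ℕ) : ℝ)), fun α hα => ?_⟩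
  have hα2 : α₂ ≤ α := (le_max_left _ _).trans hα
  have hαs : ((k + 2 * d : ℕ) : ℝ) + ((1 + 2 * d : ℕ) : ℝ) ≤ α := (le_max_right _ _).trans hα
  have hαk : ((k + 2 * d : ℕ) : ℝ) ≤ α := by
    have : (0 : ℝ) ≤ ((1 + 2 * d : ℕ) : ℝ) := Nat.cast_nonneg _
    linarith
  have hα1 : ((1 + 2 * d : ℕ) : ℝ) ≤ α := by
    have : (0 : ℝ) ≤ ((k + 2 * d : ℕ) : ℝ) := Nat.cast_nonneg _
    linarith
  set e : ℝ := (2 : ℝ) ^ (-α / 2) with he
  have he0 : 0 < e := by positivity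
  have hee : e ^ 2 = (2 : ℝ) ^ (-α) := by
    rw [he, ← Real.rpow_natCast, ← Real.rpow_mul (by norm_num)]
    congr 1
    push_cast
    ring
  have hpow : (2 : ℝ) ^ α * e ^ 2 = 1 := by
    rw [hee, ← Real.rpow_add (by norm_num), add_neg_cancel, Real.rpow_zero]
  have hsm : (A + A1) * e < min δ 1 := hα₂ α hα2
  have hAe : A * e ≤ δ := by
    have : A * e ≤ (A + A1) * e := by gcongr; linarith
    exact this.trans (hsm.le.trans (min_le_left _ _))
  have hA1e : A1 * e ≤ 1 := by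
    have : A1 * e ≤ (A + A1) * e := by gcongr; linarith
    exact this.trans (hsm.le.trans (min_le_right _ _))
  obtain ⟨b, hb0, hbn, hbd⟩ := HA α hαk
  obtain ⟨b1, hb10, hb1n, hb1d⟩ := HA1 α hα1
  -- the solution up to `c 2^α`
  obtain ⟨U, hU0, hU, hUc⟩ := H (A * e) (by positivity) hAe (γ 0 • (1 : WA d k) + b)
    (by rw [coef_add, coef_smul, coef_one, if_pos rfl, mul_one, hb0, add_zero])
    (by rw [add_sub_cancel_left]; exact hbn) (c * (2 : ℝ) ^ α) (by positivity) (by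
      rw [hc]
      have hA2 : A ^ 2 ≠ 0 := by positivity
      calc c0 / A ^ 2 * (2 : ℝ) ^ α * (A * e) ^ 2 = c0 * ((2 : ℝ) ^ α * e ^ 2) := by
            field_simp
        _ ≤ c0 := by rw [hpow, mul_one])
  have hU0' : (fun t => coef (U t)) 0 =
      fun n => γ n * ((Real.sqrt (1 + sqNorm n) ^ (-α) : ℝ) : ℂ) := by
    funext n
    simp only [hU0]
    rw [hbd n, coef_add, coef_smul, coef_one]
    split_ifs <;> simp
  refine ⟨⟨_, hU, hU0'⟩, fun T u hu hu0 t ht => ?_⟩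
  obtain ⟨hsum, hkin, hzero⟩ := H2 b1 hb10 (hb1n.trans hA1e) T u hu
    (fun n => by rw [hu0]; exact hb1d n) t ht
  have hKb : C2 * ‖b1‖ ^ 2 ≤ C2 * A1 ^ 2 * (2 : ℝ) ^ (-α) := by
    rw [← hee]
    calc C2 * ‖b1‖ ^ 2 ≤ C2 * (A1 * e) ^ 2 := by gcongr
      _ = _ := by ring
  have hCC : 0 ≤ (1 + d : ℝ) ^ k * (C1 * A) ^ 2 := by positivity
  have h2α : 0 < (2 : ℝ) ^ (-α) := by positivity
  by_cases htc : t ≤ c * (2 : ℝ) ^ α
  · -- both solutions agree up to `t`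
    have h1 := unique hk (isSolution_mono ht.2 hu) (isSolution_mono htc hU)
      (hu0.trans hU0'.symm) t ⟨ht.1, le_rfl⟩
    obtain ⟨w, hw1, hw2⟩ := hUc t ⟨ht.1, htc⟩
    have h3 : sobolevSq k (fun n => u t n - if n = 0 then w * γ 0 else 0) ≤
        C * (2 : ℝ) ^ (-α) := by
      have e1 : (fun n => u t n - if n = 0 then w * γ 0 else 0) =
          coef (U t - w • (γ 0 • (1 : WA d k))) := by
        funext n
        rw [h1, coef_sub, coef_smul, coef_smul, coef_one]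
        split_ifs <;> simp
      rw [e1]
      calc sobolevSq k (coef (U t - w • (γ 0 • (1 : WA d k))))
          ≤ (1 + d : ℝ) ^ k * ‖U t - w • (γ 0 • (1 : WA d k))‖ ^ 2 := sobolevSq_le _
        _ ≤ (1 + d : ℝ) ^ k * (C1 * (A * e)) ^ 2 := by gcongr
        _ = (1 + d : ℝ) ^ k * (C1 * A) ^ 2 * (2 : ℝ) ^ (-α) := by rw [← hee]; ring
        _ ≤ C * (2 : ℝ) ^ (-α) := by
            gcongr
            rw [hC]
            have : 0 ≤ 3 * (C2 * A1 ^ 2) := by positivity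
            linarith
    refine ⟨w, hw1, le_trans ?_ h3, fun _ => h3⟩
    have hmem : MemSobolev k (fun n => u t n - if n = 0 then w * γ 0 else 0) := by
      refine mem_sub (hu.mem t ht) ?_
      refine summable_of_ne_finset_zero (s := {0}) fun n hn => ?_
      simp only [Finset.mem_singleton] at hn
      simp [hn]
    have hterm : ∀ n : Lat d, (1 + sqNorm n) ^ 1 * ‖u t n - if n = 0 then w * γ 0 else 0‖ ^ 2 ≤
        (1 + sqNorm n) ^ k * ‖u t n - if n = 0 then w * γ 0 else 0‖ ^ 2 := by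
      intro n
      have := sqNorm_nonneg n
      gcongr
      · linarith
    exact (Summable.of_nonneg_of_le (fun n => mul_nonneg (weight_pos 1 n).le (sq_nonneg _))
      hterm hmem).tsum_le_tsum hterm hmem
  · obtain ⟨w, hw1, hw2⟩ := circle_dist h0 (K := C2 * ‖b1‖ ^ 2) (by positivity) hsum hkin hzero
    refine ⟨w, hw1, hw2.trans ?_, fun h => absurd h htc⟩
    rw [hC]
    nlinarith

/-- Almost surely, for all large `α`. -/
theorem ae_all {Ω : Type*} [MeasurableSpace Ω] (P : Measure Ω) {p : ℕ} (hp : Odd p) (hp3 : 3 ≤ p)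
    (hd : 2 ≤ d) (hk : d < 2 * k) (g : Lat d → Ω → ℂ) (hm : ∀ n, Measurable (g n))
    (hg : ∀ n, P.map (g n) = stdComplexGaussian) :
    ∀ᵐ ω ∂P, ∃ c : ℝ, 0 < c ∧ ∃ C : ℝ, ∃ α₂ : ℝ, ∀ α : ℝ, α₂ ≤ α →
      ENNReal.ofReal (c * (2 : ℝ) ^ α) ≤ lifespan d p k (datum g α ω) ∧
      ∀ (T : ℝ) (u : ℝ → Lat d → ℂ), IsSolution d p k T u → u 0 = datum g α ω →
        ∀ t ∈ Icc 0 T, ∃ w : ℂ, ‖w‖ = 1 ∧
          sobolevSq 1 (fun n => u t n - if n = 0 then w * g 0 ω else 0) ≤ C * (2 : ℝ) ^ (-α) ∧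
          (t ≤ c * (2 : ℝ) ^ α →
            sobolevSq k (fun n => u t n - if n = 0 then w * g 0 ω else 0) ≤
              C * (2 : ℝ) ^ (-α)) := by
  obtain ⟨m, rfl⟩ := hp
  have hm1 : 1 ≤ m := by omega
  filter_upwards [Vale.Agent.P139.H212.ae_good (hm 0) (hg 0) hm1, ae_summable hm hg] with ω h0 hs
  obtain ⟨c, hc, C, α₂, H⟩ := det_all hd hk hm1 (γ := fun n => g n ω) h0.1 (gapC_of_good h0.2) hs
  refine ⟨c, hc, C, α₂, fun α hα => ⟨?_, (H α hα).2⟩⟩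
  obtain ⟨u, hu, hu0⟩ := (H α hα).1
  unfold lifespan
  have hT : 0 ≤ c * (2 : ℝ) ^ α := by positivity
  refine le_iSup₂_of_le (NNReal.mk _ hT) ⟨u, hu, hu0⟩ ?_
  rw [ENNReal.ofReal, Real.toNNReal_of_nonneg hT]

end Vale.Agent.P139.H203
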