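import Vale.Agent.P139.H203.Emb

/-! # P139: small data, and the probability of long life for a fixed `α` -/

open Set Metric Filter Topology MeasureTheory ProbabilityTheory
open scoped NNReal ENNReal ComplexConjugate

namespace Vale.Agent.P139.H203

open Vale.Agent.P139.A Vale.Agent.P139.A.WA Vale.Agent.P139.H836

variable {d k : ℕ}

/-- Small data live long. -/
theorem small_data {m : ℕ} (hm : 1 ≤ m) {T : ℝ} (hT : 0 ≤ T) :
    ∃ ρ : ℝ, 0 < ρ ∧ ∀ a : WA d k, ‖a‖ ≤ ρ → ∃ u : ℝ → WA d k, u 0 = a ∧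
      IsSolution d (2 * m + 1) k T (fun t => coef (u t)) := by
  set M := wienerModel d k with hM
  set L : ℝ := T * 4 ^ (2 * m + 1) with hL
  have hL0 : 0 ≤ L := by positivity
  set ρ : ℝ := 1 / (1 + L) with hρ
  have hρ0 : 0 < ρ := by positivity
  have hρ1 : ρ ≤ 1 := by
    rw [hρ, div_le_one (by positivity)]
    linarith
  have hLρ : L * ρ ≤ 1 := by
    rw [hρ, mul_one_div, div_le_one (by positivity)]
    linarith
  refine ⟨ρ, hρ0, fun a ha => ?_⟩
  have h2ρ : 0 < 2 * ρ := by positivity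
  obtain ⟨v, hv0, hv⟩ := M.exists_flow m h2ρ hT a
  have hbd : ∀ t ∈ Icc 0 T, ‖v t‖ ≤ 2 * ρ := by
    intro t ht
    have h1 := (convex_Icc (0 : ℝ) T).norm_image_sub_le_of_norm_hasDerivWithin_le
      (f := v) (C := (4 * ρ) ^ (2 * m + 1)) (fun s hs => hv s hs) (fun s hs => ?_)
      ⟨le_rfl, hT⟩ ht
    · rw [sub_zero, Real.norm_of_nonneg ht.1, hv0] at h1
      have h2 : (4 * ρ) ^ (2 * m + 1) * t ≤ ρ := by
        calc (4 * ρ) ^ (2 * m + 1) * t ≤ (4 * ρ) ^ (2 * m + 1) * T := by gcongr; exact ht.2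
          _ = L * ρ ^ (2 * m) * ρ := by rw [hL, mul_pow, pow_succ ρ]; ring
          _ ≤ L * ρ ^ 1 * ρ := by
              gcongr L * ?_ * ρ
              exact pow_le_pow_of_le_one hρ0.le hρ1 (by omega)
          _ = (L * ρ) * ρ := by ring
          _ ≤ 1 * ρ := by gcongr
          _ = ρ := one_mul ρ
      have h3 : ‖v t‖ ≤ ‖v t - a‖ + ‖a‖ := by
        simpa using norm_add_le (v t - a) a
      linarith
    · refine (cutField_norm_le (M := ⟨(4 * ρ) ^ (2 * m + 1), by positivity⟩) h2ρ
        (fun x hx => ?_) (v s))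
      refine (M.field_norm_le m s x).trans ?_
      have hx' : ‖x‖ ≤ 4 * ρ := by
        have : ‖x‖ ≤ 2 * (2 * ρ) := by simpa only [mem_closedBall, dist_zero_right] using hx
        linarith
      show ‖x‖ ^ (2 * m + 1) ≤ (4 * ρ) ^ (2 * m + 1)
      gcongr
  refine ⟨fun t => M.U t (v t), ?_, ?_⟩
  · show M.U 0 (v 0) = a
    rw [hv0]
    apply M.ext
    intro n
    rw [M.coeff_U_zero_time]
  · refine isSolution_of (M.continuousOn_U (HasDerivWithinAt.continuousOn hv)) ?_
    intro t ht n
    have h2 := M.coeff_deriv h2ρ (hv t ht) (hbd t ht) n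
    refine h2.congr_deriv ?_
    rw [nl_eq_F]
    show -Complex.I * ((sqNorm n : ℂ) * coef (M.U t (v t)) n + coef (F m (M.U t (v t))) n) = _
    ring

theorem summable_rpow_weight {β : ℝ} (hβ : (d : ℝ) < β) :
    Summable fun n : Lat d => (Real.sqrt (1 + sqNorm n) ^ β)⁻¹ := by
  rcases Nat.eq_zero_or_pos d with rfl | hd
  · exact summable_of_hasFiniteSupport (Set.toFinite _)
  have hd0 : (0 : ℝ) < d := by exact_mod_cast hd
  set s : ℝ := β / (2 * d) with hs
  have hs1 : 1 / 2 < s := by
    rw [hs, lt_div_iff₀ (by positivity)]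
    linarith
  refine Summable.of_nonneg_of_le (fun n => by positivity) (fun n => ?_)
    (summable_prod_fin (d := d) (f := fun m => ((1 + (m : ℝ) ^ 2) ^ s)⁻¹)
      (fun m => by positivity) (summable_rpow_int hs1))
  rw [Finset.prod_inv_distrib]
  apply inv_anti₀
  · exact Finset.prod_pos fun j _ => by positivity
  · have h0 := sqNorm_nonneg n
    calc ∏ j, (1 + (n j : ℝ) ^ 2) ^ s ≤ ∏ _j : Fin d, (1 + sqNorm n) ^ s := by
          refine Finset.prod_le_prod (fun j _ => by positivity) (fun j _ => ?_)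
          apply Real.rpow_le_rpow (by positivity) _ (by linarith)
          have : (n j : ℝ) ^ 2 ≤ sqNorm n := by
            unfold sqNorm
            exact Finset.single_le_sum (f := fun j => (n j : ℝ) ^ 2) (fun i _ => sq_nonneg _)
              (Finset.mem_univ j)
          linarith
      _ = Real.sqrt (1 + sqNorm n) ^ β := by
          rw [Finset.prod_const, Finset.card_univ, Fintype.card_fin, ← Real.rpow_natCast,
            ← Real.rpow_mul (by linarith), Real.sqrt_eq_rpow, ← Real.rpow_mul (by linarith), hs]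
          congr 1
          field_simp

theorem weight_le (n : Lat d) : W k n ≤ 2 ^ k * Real.sqrt (1 + sqNorm n) ^ (k : ℝ) := by
  have h0 := sqNorm_nonneg n
  rw [Real.rpow_natCast, ← mul_pow]
  unfold W
  gcongr
  have h1 : ‖n‖ ≤ Real.sqrt (1 + sqNorm n) := by
    apply Real.le_sqrt_of_sq_le
    have := sup_sq_le n
    linarith
  have h2 : 1 ≤ Real.sqrt (1 + sqNorm n) := by
    apply Real.le_sqrt_of_sq_le
    linarith
  linarith

theorem summable_q {α : ℝ} (hα : (k : ℝ) + d < α) :
    Summable fun n : Lat d => W k n * Real.sqrt (1 + sqNorm n) ^ (-α) := by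
  refine Summable.of_nonneg_of_le (fun n => ?_) (fun n => ?_)
    ((summable_rpow_weight (d := d) (β := α - k) (by linarith)).mul_left (2 ^ k))
  · exact mul_nonneg (W_pos n).le (Real.rpow_nonneg (Real.sqrt_nonneg _) _)
  · have h0 := sqNorm_nonneg n
    have h1 : 0 < Real.sqrt (1 + sqNorm n) := Real.sqrt_pos.2 (by linarith)
    calc W k n * Real.sqrt (1 + sqNorm n) ^ (-α)
        ≤ 2 ^ k * Real.sqrt (1 + sqNorm n) ^ (k : ℝ) * Real.sqrt (1 + sqNorm n) ^ (-α) := by
          gcongr
          exact weight_le n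
      _ = 2 ^ k * (Real.sqrt (1 + sqNorm n) ^ (α - k))⁻¹ := by
          rw [mul_assoc, ← Real.rpow_add h1, ← Real.rpow_neg h1.le]
          congr 2
          ring

end Vale.Agent.P139.H203
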